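import Vale.Agent.P074.Third.Cells
import Mathlib.MeasureTheory.Measure.Dirac
import Mathlib.MeasureTheory.Integral.Lebesgue.Map
import Mathlib.MeasureTheory.Integral.Bochner.L1

/-!
# The gradient of a potential with prescribed cell masses is an optimal map
-/

open MeasureTheory Set
open scoped ENNReal RealInnerProductSpace

namespace Vale.Agent.P074

variable {d : ℕ} {ι : Type*} [Fintype ι] [Nonempty ι]

/-- The discrete measure with weights `w i` at the sites `y i`. -/
noncomputable def atoms (w : ι → ℝ) (y : ι → Euc d) : Measure (Euc d) :=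
  ∑ i, ENNReal.ofReal (w i) • Measure.dirac (y i)

omit [Nonempty ι] in
lemma ae_mem_range_atoms (w : ι → ℝ) (y : ι → Euc d) : ∀ᵐ z ∂atoms w y, z ∈ range y := by
  rw [ae_iff, atoms, Measure.coe_finsetSum, Finset.sum_apply]
  refine Finset.sum_eq_zero fun i _ => ?_
  simp

/-- A measurable selection of the subgradient. -/
theorem exists_subgradient {K : Set (Euc d)} (hK : MeasurableSet K) {y : ι → Euc d} {ψ : ι → ℝ}
    (hy : Function.Injective y) :
    ∃ T : Euc d → Euc d, Measurable T ∧ (∀ x, T x = 0 ∨ T x ∈ range y) ∧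
      (∀ x ∈ K, ∃ i, x ∈ cell K y ψ i ∧ T x = y i) ∧
      ∀ i, ∀ᵐ x ∂(volume : Measure (Euc d)).restrict (cell K y ψ i), T x = y i := by
  classical
  set e := Fintype.equivFin ι
  set D : ι → Set (Euc d) := fun i => cell K y ψ i \ ⋃ j ∈ {j | e j < e i}, cell K y ψ j
  set T : Euc d → Euc d := fun x => ∑ i, (D i).indicator (fun _ => y i) x
  have hD : ∀ i j x, x ∈ D i → x ∈ D j → i = j := fun i j x hi hj => by
    rcases lt_trichotomy (e i) (e j) with h | h | h
    · exact absurd (mem_iUnion₂.2 ⟨i, h, hi.1⟩) hj.2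
    · exact e.injective h
    · exact absurd (mem_iUnion₂.2 ⟨j, h, hj.1⟩) hi.2
  have hval : ∀ i x, x ∈ D i → T x = y i := fun i x hi => by
    simp only [T]
    rw [Finset.sum_eq_single i (fun j _ hj => indicator_of_notMem (fun h => hj (hD j i x h hi)) _)
      (by simp), indicator_of_mem hi]
  have hsel : ∀ x ∈ K, ∃ i, x ∈ D i := fun x hx => by
    obtain ⟨k, hk⟩ := exists_pot_eq y ψ x
    obtain ⟨i, hi, hmin⟩ := (Finset.univ.filter fun j => x ∈ cell K y ψ j).exists_min_image e
      ⟨k, Finset.mem_filter.2 ⟨Finset.mem_univ _, mem_cell_of_pot_eq hx hk⟩⟩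
    refine ⟨i, (Finset.mem_filter.1 hi).2, fun h => ?_⟩
    obtain ⟨j, hj, hxj⟩ := mem_iUnion₂.1 h
    exact absurd (hmin j (Finset.mem_filter.2 ⟨Finset.mem_univ _, hxj⟩)) (not_le.2 hj)
  refine ⟨T, Finset.measurable_sum _ fun i _ => measurable_const.indicator
    ((measurableSet_cell hK i).diff (MeasurableSet.biUnion (Set.to_countable _)
      fun j _ => measurableSet_cell hK j)), fun x => ?_, fun x hx => ?_, fun i => ?_⟩
  · by_cases h : ∃ i, x ∈ D i
    · obtain ⟨i, hi⟩ := h
      exact Or.inr ⟨i, (hval i x hi).symm⟩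
    · push Not at h
      exact Or.inl (Finset.sum_eq_zero fun i _ => indicator_of_notMem (h i) _)
  · obtain ⟨i, hi⟩ := hsel x hx
    exact ⟨i, hi.1, hval i x hi⟩
  · refine (ae_restrict_iff' (measurableSet_cell hK i)).2 ?_
    have hnull : ∀ᵐ x ∂(volume : Measure (Euc d)), ∀ j, j ≠ i →
        x ∉ cell K y ψ i ∩ cell K y ψ j := by
      refine ae_all_iff.2 fun j => ?_
      by_cases hj : j = i
      · exact ae_of_all _ fun x h => absurd hj h
      · exact (measure_eq_zero_iff_ae_notMem.1 (aedisjoint_cell hy (Ne.symm hj))).mono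
          fun x hx _ => hx
    filter_upwards [hnull] with x hx hxi
    obtain ⟨j, hj⟩ := hsel x hxi.1
    rcases eq_or_ne j i with rfl | h
    · exact hval j x hj
    · exact absurd ⟨hxi, hj.1⟩ (hx j h)

/-- Weak duality: the subgradient is an optimal map. -/
theorem exists_semidiscrete_map {K : Set (Euc d)} (hK : IsCompact K) (hK0 : volume K ≠ 0)
    {y : ι → Euc d} (hy : Function.Injective y) {R : ℝ} (hR : 0 ≤ R) (hyR : ∀ i, ‖y i‖ ≤ R)
    {μ : ι → ℝ} {ψ : ι → ℝ} (hmass : ∀ i, volume.real (cell K y ψ i) = μ i) :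
    ∃ T : Euc d → Euc d,
      IsOptimalMap (uniformMeasure K) (atoms (fun i => μ i / volume.real K) y) T ∧
      (∀ x, ‖T x‖ ≤ R) ∧ ∀ x ∈ K, ∀ z, pot y ψ x + ⟪T x, z - x⟫ ≤ pot y ψ z := by
  classical
  obtain ⟨T, hTm, hTr, hTcell, hTae⟩ := exists_subgradient hK.measurableSet (ψ := ψ) hy
  have hTR : ∀ x, ‖T x‖ ≤ R := fun x => by
    rcases hTr x with h | ⟨i, hi⟩
    · simp [h, hR]
    · exact hi ▸ hyR i
  refine ⟨T, ?_, hTR, fun x hx z => ?_⟩
  swap
  · obtain ⟨i, hi, hiy⟩ := hTcell x hx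
    rw [hiy, pot_eq_of_mem hi, inner_sub_right, real_inner_comm z (y i),
      real_inner_comm x (y i)]
    linarith [le_pot y ψ z i]
  set ρ := uniformMeasure K
  set w : ι → ℝ := fun i => μ i / volume.real K
  have hVt : volume K ≠ ⊤ := hK.measure_lt_top.ne
  have hρ : IsProbabilityMeasure ρ := ⟨by
    simp [ρ, uniformMeasure, ENNReal.inv_mul_cancel hK0 hVt]⟩
  have hVpos : 0 < volume.real K := ENNReal.toReal_pos hK0 hVt
  have hmap : ρ.map T = atoms w y := by
    refine Measure.ext_of_lintegral _ fun g hg => ?_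
    rw [lintegral_map hg hTm, atoms, lintegral_finsetSum_measure]
    simp only [ρ, uniformMeasure, lintegral_smul_measure, smul_eq_mul, lintegral_dirac' _ hg]
    rw [show ∫⁻ x in K, g (T x) = ∫⁻ x in ⋃ i, cell K y ψ i, g (T x) by rw [iUnion_cell],
      lintegral_iUnion₀ (fun i => (measurableSet_cell hK.measurableSet i).nullMeasurableSet)
        (aedisjoint_cell hy), tsum_fintype, Finset.mul_sum]
    refine Finset.sum_congr rfl fun i _ => ?_
    rw [lintegral_congr_ae (g := fun _ => g (y i)) ((hTae i).mono fun x hx => by simp only [hx]),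
      setLIntegral_const]
    have hci : volume (cell K y ψ i) = ENNReal.ofReal (μ i) := by
      rw [← hmass i, ofReal_measureReal ((measure_mono (cell_subset i)).trans_lt hK.measure_lt_top).ne]
    rw [hci, ← ofReal_measureReal hVt, ← ENNReal.ofReal_inv_of_pos hVpos, mul_left_comm,
      ← ENNReal.ofReal_mul (inv_pos.2 hVpos).le, mul_comm (g (y i))]
    simp only [w, div_eq_inv_mul]
  refine ⟨hTm, hmap, fun S hS hSmap => ?_⟩
  obtain ⟨D, hD⟩ := hK.isBounded.exists_norm_le
  have hρK : ∀ᵐ x ∂ρ, x ∈ K :=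
    Measure.ae_smul_measure (ae_restrict_mem hK.measurableSet) _
  have hrange : ∀ U : Euc d → Euc d, Measurable U → ρ.map U = atoms w y →
      ∀ᵐ x ∂ρ, U x ∈ range y := fun U hU hUm =>
    (ae_map_iff hU.aemeasurable (finite_range y).measurableSet).1
      (hUm ▸ ae_mem_range_atoms w y)
  set Φ : Euc d → ℝ := fun z => ∑ i, ({y i} : Set (Euc d)).indicator (fun _ => ‖y i‖ ^ 2 - 2 * ψ i) z
  have hΦm : Measurable Φ := Finset.measurable_sum _ fun i _ =>
    measurable_const.indicator (measurableSet_singleton _)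
  have hΦy : ∀ i, Φ (y i) = ‖y i‖ ^ 2 - 2 * ψ i := fun i => by
    simp only [Φ]
    rw [Finset.sum_eq_single i (fun j _ hj => indicator_of_notMem
      (fun h => hj (hy (mem_singleton_iff.1 h).symm)) _) (by simp),
      indicator_of_mem (mem_singleton _)]
  set q : Euc d → ℝ := fun x => ‖x‖ ^ 2 - 2 * pot y ψ x
  have hqc : Continuous q := by
    have := continuous_pot y ψ
    simp only [q]
    fun_prop
  have hiq : Integrable q ρ :=
    (hqc.continuousOn.integrableOn_compact hK).smul_measure (ENNReal.inv_ne_top.2 hK0)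
  obtain ⟨bΦ, hbΦ⟩ := (finite_range fun i => |‖y i‖ ^ 2 - 2 * ψ i|).bddAbove
  have hiΦ : ∀ U : Euc d → Euc d, Measurable U → ρ.map U = atoms w y →
      Integrable (fun x => Φ (U x)) ρ := fun U hU hUm =>
    Integrable.of_bound (hΦm.comp hU).aestronglyMeasurable bΦ ((hrange U hU hUm).mono
      fun x ⟨i, hi⟩ => by rw [← hi, hΦy, Real.norm_eq_abs]; exact hbΦ ⟨i, rfl⟩)
  have hic : ∀ U : Euc d → Euc d, Measurable U → ρ.map U = atoms w y →
      Integrable (fun x => ‖x - U x‖ ^ 2) ρ := fun U hU hUm =>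
    Integrable.of_bound ((measurable_id.sub hU).norm.pow_const 2).aestronglyMeasurable
      ((D + R) ^ 2) (by
        filter_upwards [hρK, hrange U hU hUm] with x hx hi
        obtain ⟨i, hi⟩ := hi
        rw [Real.norm_eq_abs, abs_of_nonneg (sq_nonneg _), ← hi]
        exact pow_le_pow_left₀ (norm_nonneg _)
          ((norm_sub_le _ _).trans (add_le_add (hD x hx) (hyR i))) 2)
  have hcost : ∀ U : Euc d → Euc d, Measurable U → ρ.map U = atoms w y →
      transportCost ρ U = ENNReal.ofReal (∫ x, ‖x - U x‖ ^ 2 ∂ρ) := fun U hU hUm => by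
    rw [ofReal_integral_eq_lintegral_ofReal (hic U hU hUm) (ae_of_all _ fun x => sq_nonneg _)]
    refine lintegral_congr fun x => ?_
    rw [← ofReal_norm, ← ENNReal.ofReal_pow (norm_nonneg _)]
  have hΦint : ∀ U : Euc d → Euc d, Measurable U → ρ.map U = atoms w y →
      ∫ x, Φ (U x) ∂ρ = ∫ z, Φ z ∂atoms w y := fun U hU hUm => by
    rw [← hUm, integral_map hU.aemeasurable hΦm.aestronglyMeasurable]
  rw [hcost S hS hSmap, hcost T hTm hmap]
  refine ENNReal.ofReal_le_ofReal ?_
  have hT : ∫ x, ‖x - T x‖ ^ 2 ∂ρ = ∫ x, (q x + Φ (T x)) ∂ρ := by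
    refine integral_congr_ae ?_
    filter_upwards [hρK] with x hx
    obtain ⟨i, hi, hiy⟩ := hTcell x hx
    rw [hiy, hΦy, norm_sub_sq_real]
    simp only [q, pot_eq_of_mem hi]
    ring
  rw [hT, integral_add hiq (hiΦ T hTm hmap), hΦint T hTm hmap, ← hΦint S hS hSmap,
    ← integral_add hiq (hiΦ S hS hSmap)]
  refine integral_mono_ae (hiq.add (hiΦ S hS hSmap)) (hic S hS hSmap) ?_
  filter_upwards [hrange S hS hSmap] with x hi
  obtain ⟨i, hi⟩ := hi
  rw [← hi, hΦy, norm_sub_sq_real]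
  simp only [q]
  linarith [le_pot y ψ x i]

end Vale.Agent.P074
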