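import Vale.Agent.P074.Stability
import Vale.Agent.P074.Third.SemidiscreteMap

/-!
# From finitely many atoms to all targets

The `1/4`-stability in `W₁` turns a stability estimate for finite targets with a common mass vector
into the admissibility of the exponent `1/3`.
-/

open MeasureTheory Set Metric Filter
open scoped ENNReal Topology RealInnerProductSpace

namespace Vale.Agent.P074

variable {d : ℕ}

lemma enorm_sq (z : Euc d) : ‖z‖ₑ ^ 2 = ENNReal.ofReal (‖z‖ ^ 2) := by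
  rw [← ofReal_norm, ← ENNReal.ofReal_pow (norm_nonneg _)]

lemma lintegral_sq_sub_le {ρ : Measure (Euc d)} {f g a b : Euc d → Euc d} (hf : Measurable f)
    (ha : Measurable a) (hb : Measurable b) :
    ∫⁻ x, ‖f x - g x‖ₑ ^ 2 ∂ρ ≤ 3 * ((∫⁻ x, ‖f x - a x‖ₑ ^ 2 ∂ρ) +
      (∫⁻ x, ‖a x - b x‖ₑ ^ 2 ∂ρ) + ∫⁻ x, ‖g x - b x‖ₑ ^ 2 ∂ρ) := by
  have hm : Measurable fun x => ‖f x - a x‖ₑ ^ 2 := (hf.sub ha).enorm.pow_const 2
  have hm' : Measurable fun x => ‖a x - b x‖ₑ ^ 2 := (ha.sub hb).enorm.pow_const 2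
  rw [← lintegral_add_left hm, ← lintegral_add_left (hm.fun_add hm'),
    ← lintegral_const_mul' _ _ (by norm_num)]
  refine lintegral_mono fun x => ?_
  rw [enorm_sq, enorm_sq, enorm_sq, enorm_sq, ← ENNReal.ofReal_add (sq_nonneg _) (sq_nonneg _),
    ← ENNReal.ofReal_add (by positivity) (sq_nonneg _), show (3 : ℝ≥0∞) = ENNReal.ofReal 3 by simp,
    ← ENNReal.ofReal_mul (by norm_num)]
  refine ENNReal.ofReal_le_ofReal ?_
  have h : ‖f x - g x‖ ≤ ‖f x - a x‖ + ‖a x - b x‖ + ‖g x - b x‖ := by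
    calc ‖f x - g x‖ = ‖(f x - a x) + (a x - b x) + (b x - g x)‖ := by congr 1; abel
      _ ≤ _ := (norm_add₃_le).trans_eq (by rw [norm_sub_rev (b x)])
  calc ‖f x - g x‖ ^ 2 ≤ (‖f x - a x‖ + ‖a x - b x‖ + ‖g x - b x‖) ^ 2 :=
        pow_le_pow_left₀ (norm_nonneg _) h 2
    _ ≤ _ := by
      nlinarith [sq_nonneg (‖f x - a x‖ - ‖a x - b x‖), sq_nonneg (‖a x - b x‖ - ‖g x - b x‖),
        sq_nonneg (‖f x - a x‖ - ‖g x - b x‖)]

/-- Rounding to finitely many points of a compact set. -/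
lemma exists_rounding {Y : Set (Euc d)} (hY : IsCompact Y) (hYne : Y.Nonempty) {ε : ℝ} (hε : 0 < ε) :
    ∃ g : SimpleFunc (Euc d) (Euc d), (∀ z, g z ∈ Y) ∧ ∀ z ∈ Y, ‖z - g z‖ ≤ ε := by
  classical
  obtain ⟨t, htY, htfin, htcover⟩ := hY.finite_cover_balls hε
  obtain ⟨y₀, hy₀⟩ := hYne
  set l : List (Euc d) := y₀ :: htfin.toFinset.toList
  set cen : ℕ → Euc d := fun n => l[n]?.getD y₀
  have hcen : ∀ n, cen n ∈ Y := fun n => by
    by_cases hn : n < l.length
    · have hmem : l[n] ∈ l := l.getElem_mem hn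
      simp only [cen, List.getElem?_eq_getElem hn, Option.getD_some]
      rcases List.mem_cons.1 hmem with h | h
      · rwa [h]
      · exact htY (by simpa using h)
    · simp only [cen, List.getElem?_eq_none (not_lt.1 hn), Option.getD_none]
      exact hy₀
  set g : SimpleFunc (Euc d) (Euc d) := SimpleFunc.nearestPt cen l.length
  have hgY : ∀ z, g z ∈ Y := fun z => hcen _
  have hg : ∀ z ∈ Y, ‖z - g z‖ ≤ ε := fun z hz => by
    obtain ⟨c, hc, hzc⟩ := mem_iUnion₂.1 (htcover hz)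
    obtain ⟨n, hn, hnc⟩ := List.getElem_of_mem (List.mem_cons_of_mem y₀
      (show c ∈ htfin.toFinset.toList by simpa using hc))
    have h := SimpleFunc.edist_nearestPt_le cen z (k := n) (N := l.length) hn.le
    rw [edist_dist, edist_dist, ENNReal.ofReal_le_ofReal_iff dist_nonneg] at h
    simp only [cen, l, List.getElem?_eq_getElem hn, Option.getD_some] at h
    rw [hnc] at h
    rw [← dist_eq_norm, dist_comm]
    refine h.trans ?_
    rw [dist_comm]
    exact (mem_ball.1 hzc).le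
  exact ⟨g, hgY, hg⟩

/-- A small shift makes both projections of finitely many pairs injective. -/
lemma exists_shift (hd : 0 < d) (F : Finset (Euc d × Euc d)) {ε : ℝ} (hε : 0 < ε) :
    ∃ s : Euc d × Euc d → Euc d, (∀ x, ‖s x‖ ≤ ε) ∧
      (Function.Injective fun x : F => (x : Euc d × Euc d).1 + s x) ∧
      Function.Injective fun x : F => (x : Euc d × Euc d).2 + s x := by
  classical
  let e : Euc d := EuclideanSpace.single ⟨0, hd⟩ 1
  have he : ‖e‖ = 1 := by simp [e]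
  set k : Euc d × Euc d → ℕ := fun x => F.toList.idxOf x with hk
  have hkinj : ∀ x x' : F, k x = k x' → x = x' := fun x x' h => Subtype.ext <|
    (List.idxOf_inj (by simp : (x : Euc d × Euc d) ∈ F.toList)).1 h
  set N : ℕ := F.toList.length
  have hkN : ∀ x, k x ≤ N := fun x => List.idxOf_le_length
  set bad : Set ℝ := range fun q : F × F × Bool =>
    ⟪cond q.2.2 (q.1 : Euc d × Euc d).1 (q.1 : Euc d × Euc d).2 -
      cond q.2.2 (q.2.1 : Euc d × Euc d).1 (q.2.1 : Euc d × Euc d).2, e⟫ /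
      ((k q.2.1 : ℝ) - k q.1)
  obtain ⟨θ, hθI, hθbad⟩ : ∃ θ ∈ Ioo 0 (ε / ((N : ℝ) + 1)), θ ∉ bad :=
    ((Ioo_infinite (by positivity)).sdiff (finite_range _)).nonempty
  obtain ⟨hθ0, hθ⟩ := hθI
  set Sh : Euc d × Euc d → Euc d := fun x => x.1 + (θ * k x) • e with hSh
  set Sh' : Euc d × Euc d → Euc d := fun x => x.2 + (θ * k x) • e with hSh'
  have hshift : ∀ x, ‖(θ * (k x : ℝ)) • e‖ ≤ ε := fun x => by
    rw [norm_smul, he, mul_one, Real.norm_eq_abs, abs_of_nonneg (by positivity)]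
    have h := (lt_div_iff₀ (by positivity)).1 hθ
    have : (k x : ℝ) ≤ (N : ℝ) + 1 := by
      have : (k x : ℝ) ≤ N := by exact_mod_cast hkN x
      linarith
    nlinarith [mul_le_mul_of_nonneg_left this hθ0.le]
  have hsep : ∀ (a b : F) (z z' : Euc d), z + (θ * (k a : ℝ)) • e = z' + (θ * (k b : ℝ)) • e →
      a ≠ b → θ = ⟪z - z', e⟫ / ((k b : ℝ) - k a) := fun a b z z' h hab => by
    have h1 : z - z' = (θ * (k b : ℝ) - θ * (k a : ℝ)) • e := by
      rw [sub_smul]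
      linear_combination (norm := module) h
    rw [h1, inner_smul_left, real_inner_self_eq_norm_sq, he, RCLike.conj_to_real, one_pow, mul_one,
      ← mul_sub, mul_div_cancel_right₀]
    exact sub_ne_zero.2 fun h2 => hab (hkinj a b (by exact_mod_cast h2.symm))
  have hSinj : Function.Injective fun x : F => Sh x := fun a b h => by
    by_contra hab
    exact hθbad ⟨(a, b, true), (hsep a b _ _ h hab).symm⟩
  have hSinj' : Function.Injective fun x : F => Sh' x := fun a b h => by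
    by_contra hab
    exact hθbad ⟨(a, b, false), (hsep a b _ _ h hab).symm⟩
  exact ⟨fun x => (θ * k x) • e, hshift, hSinj, hSinj'⟩

/-- The law of a finitely valued map, as atoms. -/
lemma exists_law (π : Measure (Euc d × Euc d)) [IsProbabilityMeasure π]
    (G : SimpleFunc (Euc d × Euc d) (Euc d × Euc d)) :
    ∃ (F : Finset (Euc d × Euc d)) (w : F → ℝ), Nonempty F ∧ (∀ x ∈ F, x ∈ G.range) ∧
      (∀ x, 0 < w x) ∧ ∑ x, w x = 1 ∧
      (∀ u : Euc d × Euc d → ℝ≥0∞, ∫⁻ p, u (G p) ∂π = ∑ x : F, ENNReal.ofReal (w x) * u x) ∧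
      ∀ S : Euc d × Euc d → Euc d, π.map (G.map S) = atoms w fun x : F => S x := by
  classical
  set F : Finset (Euc d × Euc d) := G.range.filter fun x => π (G ⁻¹' {x}) ≠ 0 with hF
  have hnull : ∀ᵐ p ∂π, G p ∈ F := by
    rw [ae_iff]
    refine measure_mono_null (fun p (hp : G p ∉ F) => ?_)
      ((measure_biUnion_null_iff (G.range.filter fun x => π (G ⁻¹' {x}) = 0).countable_toSet).2
        fun x hx => (Finset.mem_filter.1 hx).2)
    refine mem_biUnion (x := G p) ?_ rfl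
    have hr : G p ∈ G.range := SimpleFunc.mem_range_self _ _
    exact Finset.mem_filter.2 ⟨hr, not_not.1 fun h => hp (Finset.mem_filter.2 ⟨hr, h⟩)⟩
  have hpos : ∀ x : F, 0 < π.real (G ⁻¹' {(x : Euc d × Euc d)}) := fun x =>
    ENNReal.toReal_pos (Finset.mem_filter.1 x.2).2 (measure_ne_top _ _)
  set w : F → ℝ := fun x => π.real (G ⁻¹' {(x : Euc d × Euc d)})
  have hdec : ∀ u : Euc d × Euc d → ℝ≥0∞,
      ∫⁻ p, u (G p) ∂π = ∑ x : F, ENNReal.ofReal (w x) * u x := fun u => by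
    have e : (fun p => u (G p)) =ᵐ[π] fun p =>
        ∑ x ∈ F, (G ⁻¹' {x}).indicator (fun _ => u x) p := by
      filter_upwards [hnull] with p hp
      refine ((Finset.sum_eq_single_of_mem (G p) hp fun x _ hx => ?_).trans ?_).symm
      · exact indicator_of_notMem (fun h : G p = x => hx h.symm) _
      · exact indicator_of_mem (show p ∈ G ⁻¹' {G p} from rfl) _
    rw [lintegral_congr_ae e, lintegral_finsetSum _ fun x _ =>
      measurable_const.indicator (G.measurableSet_preimage _), ← Finset.sum_coe_sort]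
    refine Finset.sum_congr rfl fun x _ => ?_
    rw [lintegral_indicator_const (G.measurableSet_preimage _), mul_comm]
    rw [ofReal_measureReal]
  have hw1 : ∑ x : F, w x = 1 := by
    have h := hdec fun _ => 1
    simp only [lintegral_const, measure_univ, mul_one] at h
    rw [← ENNReal.ofReal_sum_of_nonneg fun x _ => (hpos x).le] at h
    exact (ENNReal.ofReal_eq_one).1 h.symm
  have hne : Nonempty F := by
    by_contra hne
    rw [not_nonempty_iff] at hne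
    rw [Finset.univ_eq_empty, Finset.sum_empty] at hw1
    exact zero_ne_one hw1
  have hlaw : ∀ S : Euc d × Euc d → Euc d,
      π.map (G.map S) = atoms w fun x : F => S x := fun S => by
    ext s hs
    rw [Measure.map_apply (G.map S).measurable hs, ← lintegral_indicator_one
      ((G.map S).measurable hs)]
    have := hdec fun x => s.indicator 1 (S x)
    rw [atoms, Measure.coe_finsetSum, Finset.sum_apply]
    simp only [Measure.smul_apply, Measure.dirac_apply' _ hs, smul_eq_mul]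
    exact this
  exact ⟨F, w, hne, fun x hx => (Finset.mem_filter.1 hx).1, hpos, hw1, hdec, hlaw⟩

/-- A coupling is approximated by finitely many pairs of distinct sites with a common mass
vector. -/
lemma exists_atomic_approx (hd : 0 < d) {Y : Set (Euc d)} (hY : IsCompact Y) (hYne : Y.Nonempty)
    {R : ℝ} (hR : ∀ z ∈ Y, ‖z‖ ≤ R) {π : Measure (Euc d × Euc d)} [IsProbabilityMeasure π]
    (hπY : ∀ᵐ p ∂π, p.1 ∈ Y ∧ p.2 ∈ Y) {ε : ℝ} (hε : 0 < ε) (hε1 : ε ≤ 1) :
    ∃ (ι : Type) (_ : Fintype ι) (_ : Nonempty ι) (y y' : ι → Euc d) (w : ι → ℝ),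
      Function.Injective y ∧ Function.Injective y' ∧ (∀ i, ‖y i‖ ≤ R + 1) ∧
      (∀ i, ‖y' i‖ ≤ R + 1) ∧ (∀ i, 0 < w i) ∧ ∑ i, w i = 1 ∧
      (∑ i, w i * ‖y i - y' i‖ ^ 2 ≤ (∫ p, ‖p.1 - p.2‖ ^ 2 ∂π) + (16 * R + 16) * ε) ∧
      (∃ π₁, IsCoupling (π.map Prod.fst) (atoms w y) π₁ ∧
        ∫⁻ p, ‖p.1 - p.2‖ₑ ∂π₁ ≤ ENNReal.ofReal (2 * ε)) ∧
      ∃ π₂, IsCoupling (π.map Prod.snd) (atoms w y') π₂ ∧
        ∫⁻ p, ‖p.1 - p.2‖ₑ ∂π₂ ≤ ENNReal.ofReal (2 * ε) := by
  obtain ⟨g, hgY, hg⟩ := exists_rounding hY hYne hε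
  obtain ⟨y₀, hy₀⟩ := hYne
  set G : SimpleFunc (Euc d × Euc d) (Euc d × Euc d) :=
    (g.comp Prod.fst measurable_fst).pair (g.comp Prod.snd measurable_snd)
  have hG : ∀ p, G p = (g p.1, g p.2) := fun p => rfl
  obtain ⟨F, w, hne, hFr, hpos, hw1, hdec, hlaw⟩ := exists_law π G
  obtain ⟨sh, hsh, hinj, hinj'⟩ := exists_shift hd F hε
  set Sh : Euc d × Euc d → Euc d := fun x => x.1 + sh x
  set Sh' : Euc d × Euc d → Euc d := fun x => x.2 + sh x
  have hFY : ∀ x : F, (x : Euc d × Euc d).1 ∈ Y ∧ (x : Euc d × Euc d).2 ∈ Y := fun x => by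
    obtain ⟨p, hp⟩ := SimpleFunc.mem_range.1 (hFr _ x.2)
    rw [← hp, hG]
    exact ⟨hgY _, hgY _⟩
  have hnear : ∀ᵐ p ∂π, ‖p.1 - Sh (G p)‖ ≤ 2 * ε ∧ ‖p.2 - Sh' (G p)‖ ≤ 2 * ε := by
    filter_upwards [hπY] with p hp
    constructor
    · calc ‖p.1 - Sh (G p)‖ = ‖(p.1 - g p.1) - sh (G p)‖ := by
            simp only [Sh, hG]; congr 1; abel
        _ ≤ _ := (norm_sub_le _ _).trans (by linarith [hg _ hp.1, hsh (G p)])
    · calc ‖p.2 - Sh' (G p)‖ = ‖(p.2 - g p.2) - sh (G p)‖ := by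
            simp only [Sh', hG]; congr 1; abel
        _ ≤ _ := (norm_sub_le _ _).trans (by linarith [hg _ hp.2, hsh (G p)])
  have hcoup : ∀ (P : Euc d × Euc d → Euc d) (S : Euc d × Euc d → Euc d), Measurable P →
      (∀ᵐ p ∂π, ‖P p - S (G p)‖ ≤ 2 * ε) →
      ∃ π₁, IsCoupling (π.map P) (atoms w fun x : F => S x) π₁ ∧
        ∫⁻ p, ‖p.1 - p.2‖ₑ ∂π₁ ≤ ENNReal.ofReal (2 * ε) := fun P S hP hb => by
    have hm : Measurable fun p => (P p, G.map S p) := hP.prodMk (G.map S).measurable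
    refine ⟨π.map fun p => (P p, G.map S p), ⟨?_, ?_⟩, ?_⟩
    · rw [Measure.map_map measurable_fst hm]; rfl
    · rw [Measure.map_map measurable_snd hm, ← hlaw S]; rfl
    · rw [lintegral_map (by fun_prop) hm]
      calc ∫⁻ p, ‖P p - G.map S p‖ₑ ∂π ≤ ∫⁻ _, ENNReal.ofReal (2 * ε) ∂π := by
            refine lintegral_mono_ae (hb.mono fun p hp => ?_)
            rw [← ofReal_norm]
            exact ENNReal.ofReal_le_ofReal hp
        _ = _ := by simp
  refine ⟨F, inferInstance, hne, fun x => Sh x, fun x => Sh' x, w, hinj, hinj',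
    fun x => (norm_add_le _ _).trans (by linarith [hR _ (hFY x).1, hsh x]),
    fun x => (norm_add_le _ _).trans (by linarith [hR _ (hFY x).2, hsh x]), hpos, hw1, ?_,
    hcoup Prod.fst Sh measurable_fst (hnear.mono fun p hp => hp.1),
    hcoup Prod.snd Sh' measurable_snd (hnear.mono fun p hp => hp.2)⟩
  -- the cost
  have hR0 : 0 ≤ R := (norm_nonneg _).trans (hR _ hy₀)
  have hbd : ∀ᵐ p ∂π, ‖p.1 - p.2‖ ≤ 2 * R := hπY.mono fun p hp => by
    linarith [norm_sub_le p.1 p.2, hR _ hp.1, hR _ hp.2]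
  have hi : Integrable (fun p : Euc d × Euc d => ‖p.1 - p.2‖ ^ 2) π :=
    Integrable.of_bound (by fun_prop) ((2 * R) ^ 2) (hbd.mono fun p hp => by
      rw [Real.norm_eq_abs, abs_of_nonneg (sq_nonneg _)]
      exact pow_le_pow_left₀ (norm_nonneg _) hp 2)
  have hc0 : 0 ≤ ∫ p, ‖p.1 - p.2‖ ^ 2 ∂π := integral_nonneg fun p => sq_nonneg _
  rw [← ENNReal.ofReal_le_ofReal_iff (by positivity),
    ENNReal.ofReal_sum_of_nonneg fun x _ => mul_nonneg (hpos x).le (sq_nonneg _)]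
  calc ∑ x : F, ENNReal.ofReal (w x * ‖Sh x - Sh' x‖ ^ 2)
      = ∫⁻ p, ENNReal.ofReal (‖Sh (G p) - Sh' (G p)‖ ^ 2) ∂π := by
        rw [hdec fun x => ENNReal.ofReal (‖Sh x - Sh' x‖ ^ 2)]
        exact Finset.sum_congr rfl fun x _ => ENNReal.ofReal_mul (hpos x).le
    _ ≤ ∫⁻ p, ENNReal.ofReal (‖p.1 - p.2‖ ^ 2 + (16 * R + 16) * ε) ∂π := by
        refine lintegral_mono_ae ((hnear.and hbd).mono fun p hp => ENNReal.ofReal_le_ofReal ?_)
        obtain ⟨⟨h1, h2⟩, h3⟩ := hp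
        have h : ‖Sh (G p) - Sh' (G p)‖ ≤ ‖p.1 - p.2‖ + 4 * ε := by
          calc ‖Sh (G p) - Sh' (G p)‖
              = ‖-(p.1 - Sh (G p)) + (p.1 - p.2) + (p.2 - Sh' (G p))‖ := by congr 1; abel
            _ ≤ _ := (norm_add₃_le).trans (by rw [norm_neg]; linarith)
        refine (pow_le_pow_left₀ (norm_nonneg _) h 2).trans ?_
        nlinarith [mul_le_mul_of_nonneg_left h3 hε.le, mul_le_mul_of_nonneg_left hε1 hε.le]
    _ = ENNReal.ofReal ((∫ p, ‖p.1 - p.2‖ ^ 2 ∂π) + (16 * R + 16) * ε) := by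
        rw [← ofReal_integral_eq_lintegral_ofReal (hi.fun_add (integrable_const _))
          (ae_of_all _ fun p => add_nonneg (sq_nonneg _) (by positivity))]
        rw [integral_add hi (integrable_const _)]
        simp

/-- A semidiscrete `W₂^{1/3}` estimate implies that `1/3` is admissible. -/
theorem admissible_third_of_semidiscrete {d : ℕ} (hd : 0 < d)
    (h : ∀ (K : Set (Euc d)), IsCompact K → Convex ℝ K → (interior K).Nonempty → ∀ R : ℝ,
      ∃ C : ℝ, 0 ≤ C ∧ ∀ (ι : Type) [Fintype ι] [Nonempty ι] (y y' : ι → Euc d) (w : ι → ℝ),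
        Function.Injective y → Function.Injective y' → (∀ i, ‖y i‖ ≤ R) → (∀ i, ‖y' i‖ ≤ R) →
        (∀ i, 0 < w i) → ∑ i, w i = 1 → ∀ E : ℝ, 0 < E → ∑ i, w i * ‖y i - y' i‖ ^ 2 ≤ E →
        ∃ T U : Euc d → Euc d, IsOptimalMap (uniformMeasure K) (atoms w y) T ∧
          IsOptimalMap (uniformMeasure K) (atoms w y') U ∧
          ∫⁻ x, ‖T x - U x‖ₑ ^ 2 ∂uniformMeasure K ≤ ENNReal.ofReal (C * E ^ (1 / 3 : ℝ))) :
    Admissible d (1 / 3) := by
  intro K hK hconv hKint Y hY hYne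
  obtain ⟨R, hR0, hR⟩ : ∃ R : ℝ, 0 ≤ R ∧ ∀ z ∈ Y, ‖z‖ ≤ R := by
    obtain ⟨R, hR⟩ := hY.isBounded.exists_norm_le
    exact ⟨max R 0, le_max_right _ _, fun z hz => (hR z hz).trans (le_max_left _ _)⟩
  obtain ⟨Cd, hCd, hsd⟩ := h K hK hconv hKint (R + 1)
  have hBne : (closedBall (0 : Euc d) (R + 1)).Nonempty := ⟨0, by simp; linarith⟩
  obtain ⟨Cs, hCs, hst⟩ :=
    exists_stability hd hK hconv hKint (isCompact_closedBall (0 : Euc d) (R + 1)) hBne
  set ρ := uniformMeasure K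
  refine ⟨((3 * Cd + 1) ^ 3) ^ (1 / 6 : ℝ), fun μ ν hμp hνp hμ hν T U hT hU => ?_⟩
  set I := ∫⁻ x, ‖T x - U x‖ₑ ^ 2 ∂ρ with hI
  have hball : ∀ m : Measure (Euc d), m Yᶜ = 0 → m (closedBall 0 (R + 1))ᶜ = 0 := fun m hm =>
    measure_mono_null (compl_subset_compl.2 fun z hz => mem_closedBall_zero_iff.2 (by linarith [hR z hz])) hm
  have hA0 : ENNReal.ofReal ((3 * Cd + 1) ^ 3) ≠ 0 := (ENNReal.ofReal_pos.2 (by positivity)).ne'
  have key : I ^ (3 : ℝ) ≤ ENNReal.ofReal ((3 * Cd + 1) ^ 3) *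
      ⨅ (π : Measure (Euc d × Euc d)) (_ : IsCoupling μ ν π), ∫⁻ p, ‖p.1 - p.2‖ₑ ^ 2 ∂π := by
    rw [ENNReal.mul_iInf_of_ne hA0 ENNReal.ofReal_ne_top]
    refine le_iInf fun π => ?_
    rw [ENNReal.mul_iInf_of_ne hA0 ENNReal.ofReal_ne_top]
    refine le_iInf fun hπ => ?_
    have := coupling_isProbabilityMeasure hπ
    have hπY : ∀ᵐ p ∂π, p.1 ∈ Y ∧ p.2 ∈ Y := by
      have h1 : ∀ᵐ z ∂π.map Prod.fst, z ∈ Y := by rw [hπ.1]; exact ae_iff.2 hμ
      have h2 : ∀ᵐ z ∂π.map Prod.snd, z ∈ Y := by rw [hπ.2]; exact ae_iff.2 hν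
      exact (ae_of_ae_map measurable_fst.aemeasurable h1).and
        (ae_of_ae_map measurable_snd.aemeasurable h2)
    set c : ℝ := ∫ p, ‖p.1 - p.2‖ ^ 2 ∂π
    have hc0 : 0 ≤ c := integral_nonneg fun p => sq_nonneg _
    have hcl : ∫⁻ p, ‖p.1 - p.2‖ₑ ^ 2 ∂π = ENNReal.ofReal c := by
      rw [ofReal_integral_eq_lintegral_ofReal ?_ (ae_of_all _ fun p => sq_nonneg _)]
      · exact lintegral_congr fun p => enorm_sq _
      · refine Integrable.of_bound (by fun_prop) ((2 * R) ^ 2) (hπY.mono fun p hp => ?_)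
        rw [Real.norm_eq_abs, abs_of_nonneg (sq_nonneg _)]
        exact pow_le_pow_left₀ (norm_nonneg _)
          (by linarith [norm_sub_le p.1 p.2, hR _ hp.1, hR _ hp.2]) 2
    let bound : ℝ → ℝ := fun ε =>
      3 * (Real.sqrt (Cs * (2 * ε)) + Cd * (c + (16 * R + 16) * ε) ^ (1 / 3 : ℝ) +
        Real.sqrt (Cs * (2 * ε)))
    have happ : ∀ ε ∈ Ioc (0 : ℝ) 1, I ≤ ENNReal.ofReal (bound ε) := by
      rintro ε ⟨hε, hε1⟩
      obtain ⟨ι, hfin, hne, y, y', w, hy, hy', hyR, hy'R, hw, hw1, hE, ⟨π₁, hπ₁, hd₁⟩,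
        ⟨π₂, hπ₂, hd₂⟩⟩ := exists_atomic_approx hd hY hYne hR hπY hε hε1
      rw [hπ.1] at hπ₁
      rw [hπ.2] at hπ₂
      obtain ⟨T', U', hT', hU', hTU⟩ := hsd ι y y' w hy hy' hyR hy'R hw hw1
        (c + (16 * R + 16) * ε) (by positivity) hE
      have hat : ∀ z : ι → Euc d, (∀ i, ‖z i‖ ≤ R + 1) →
          atoms w z (closedBall (0 : Euc d) (R + 1))ᶜ = 0 := fun z hz => by
        have hr : ∀ᵐ x ∂atoms w z, x ∈ closedBall (0 : Euc d) (R + 1) :=
          (ae_mem_range_atoms w z).mono fun x hx => by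
            obtain ⟨i, rfl⟩ := hx
            exact mem_closedBall_zero_iff.2 (hz i)
        exact ae_iff.1 hr
      have hsqrt : ∀ {J : ℝ≥0∞} {W : ℝ≥0∞}, J ^ 2 ≤ ENNReal.ofReal Cs * W →
          W ≤ ENNReal.ofReal (2 * ε) → J ≤ ENNReal.ofReal (Real.sqrt (Cs * (2 * ε))) :=
        fun {J W} hJ hW => by
        refine (ENNReal.pow_le_pow_left_iff (n := 2) (by norm_num)).1 (hJ.trans ?_)
        rw [← ENNReal.ofReal_pow (Real.sqrt_nonneg _), Real.sq_sqrt (by positivity),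
          ENNReal.ofReal_mul hCs]
        exact mul_le_mul_right hW _
      have a1 := hsqrt (hst μ _ (hball μ hμ) (hat y hyR) T T' hT hT' π₁ hπ₁) hd₁
      have a2 := hsqrt (hst ν _ (hball ν hν) (hat y' hy'R) U U' hU hU' π₂ hπ₂) hd₂
      refine (lintegral_sq_sub_le hT.1 hT'.1 hU'.1).trans ?_
      simp only [bound]
      rw [ENNReal.ofReal_mul (by norm_num), ENNReal.ofReal_ofNat,
        ENNReal.ofReal_add (by positivity) (Real.sqrt_nonneg _),
        ENNReal.ofReal_add (Real.sqrt_nonneg _) (by positivity)]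
      exact mul_le_mul_right (add_le_add (add_le_add a1 hTU) a2) _
    have hb0 : Continuous bound := by
      refine continuous_const.mul ((Continuous.add ?_ (continuous_const.mul
        ((Real.continuous_rpow_const (by norm_num)).comp (by fun_prop)))).add ?_) <;> fun_prop
    have hlim : Tendsto (fun ε => ENNReal.ofReal (bound ε)) (𝓝[>] 0)
        (𝓝 (ENNReal.ofReal (3 * (Cd * c ^ (1 / 3 : ℝ))))) := by
      have := (ENNReal.continuous_ofReal.comp hb0).tendsto 0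
      simpa [bound, Function.comp_def] using this.mono_left nhdsWithin_le_nhds
    have hIle : I ≤ ENNReal.ofReal (3 * (Cd * c ^ (1 / 3 : ℝ))) :=
      ge_of_tendsto hlim (eventually_nhdsWithin_iff.2 <|
        (eventually_le_nhds (show (0 : ℝ) < 1 by norm_num)).mono fun ε h1 h0 => happ ε ⟨h0, h1⟩)
    rw [hcl, ← ENNReal.ofReal_mul (by positivity)]
    refine (ENNReal.rpow_le_rpow hIle (by norm_num)).trans ?_
    rw [ENNReal.ofReal_rpow_of_nonneg (by positivity) (by norm_num)]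
    refine ENNReal.ofReal_le_ofReal ?_
    rw [show (3 : ℝ) = ((3 : ℕ) : ℝ) by norm_num, Real.rpow_natCast, mul_pow, mul_pow,
      ← Real.rpow_natCast (c ^ (1 / ((3 : ℕ) : ℝ))) 3, ← Real.rpow_mul hc0]
    norm_num
    have : (3 * Cd) ^ 3 ≤ (3 * Cd + 1) ^ 3 := pow_le_pow_left₀ (by positivity) (by linarith) 3
    nlinarith [mul_le_mul_of_nonneg_right this hc0]
  calc mapDist ρ T U = (I ^ (3 : ℝ)) ^ (1 / 6 : ℝ) := by
        rw [mapDist, ← hI, ← ENNReal.rpow_mul]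
        norm_num
    _ ≤ _ := ENNReal.rpow_le_rpow key (by norm_num)
    _ = _ := by
        rw [ENNReal.mul_rpow_of_nonneg _ _ (by norm_num),
          ENNReal.ofReal_rpow_of_nonneg (by positivity) (by norm_num), W2, ← ENNReal.rpow_mul]
        norm_num

end Vale.Agent.P074
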