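import Vale.Agent.P074.Defs
import Mathlib.MeasureTheory.Measure.Lebesgue.EqHaar
import Mathlib.MeasureTheory.Integral.Bochner.Set
import Mathlib.MeasureTheory.Function.LocallyIntegrable
import Mathlib.Analysis.InnerProductSpace.Orthogonal
import Mathlib.Analysis.Convex.Function

/-!
# Laguerre cells
-/

open MeasureTheory Set
open scoped ENNReal RealInnerProductSpace

namespace Vale.Agent.P074

variable {d : ℕ} {ι : Type*} [Fintype ι] [Nonempty ι]

/-- The maximum of the affine functions `x ↦ ⟪x, y i⟫ - ψ i`. -/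
noncomputable def pot (y : ι → Euc d) (ψ : ι → ℝ) (x : Euc d) : ℝ :=
  Finset.univ.sup' Finset.univ_nonempty fun i => ⟪x, y i⟫ - ψ i

/-- The part of `K` where the `i`th affine function is maximal. -/
def cell (K : Set (Euc d)) (y : ι → Euc d) (ψ : ι → ℝ) (i : ι) : Set (Euc d) :=
  {x | x ∈ K ∧ ∀ j, ⟪x, y j⟫ - ψ j ≤ ⟪x, y i⟫ - ψ i}

variable {K : Set (Euc d)} {y : ι → Euc d} {ψ ψ' : ι → ℝ}

lemma le_pot (y : ι → Euc d) (ψ : ι → ℝ) (x : Euc d) (i : ι) : ⟪x, y i⟫ - ψ i ≤ pot y ψ x :=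
  Finset.le_sup' (fun i => ⟪x, y i⟫ - ψ i) (Finset.mem_univ i)

lemma pot_le {x : Euc d} {b : ℝ} (h : ∀ i, ⟪x, y i⟫ - ψ i ≤ b) : pot y ψ x ≤ b :=
  Finset.sup'_le _ _ fun i _ => h i

lemma exists_pot_eq (y : ι → Euc d) (ψ : ι → ℝ) (x : Euc d) :
    ∃ i, pot y ψ x = ⟪x, y i⟫ - ψ i := by
  obtain ⟨i, -, hi⟩ := Finset.exists_mem_eq_sup' (Finset.univ_nonempty (α := ι))
    fun i => ⟪x, y i⟫ - ψ i
  exact ⟨i, hi⟩

omit [Fintype ι] [Nonempty ι] in
lemma cell_subset (i : ι) : cell K y ψ i ⊆ K := fun _ hx => hx.1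

lemma pot_eq_of_mem {i : ι} {x : Euc d} (hx : x ∈ cell K y ψ i) :
    pot y ψ x = ⟪x, y i⟫ - ψ i :=
  le_antisymm (pot_le hx.2) (le_pot y ψ x i)

lemma mem_cell_of_pot_eq {i : ι} {x : Euc d} (hxK : x ∈ K) (h : pot y ψ x = ⟪x, y i⟫ - ψ i) :
    x ∈ cell K y ψ i :=
  ⟨hxK, fun j => h ▸ le_pot y ψ x j⟩

lemma iUnion_cell : ⋃ i, cell K y ψ i = K := by
  refine Subset.antisymm (iUnion_subset cell_subset) fun x hx => ?_
  obtain ⟨i, hi⟩ := exists_pot_eq y ψ x
  exact mem_iUnion.2 ⟨i, mem_cell_of_pot_eq hx hi⟩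

omit [Nonempty ι] in
lemma measurableSet_cell (hK : MeasurableSet K) (i : ι) : MeasurableSet (cell K y ψ i) := by
  have h : cell K y ψ i = K ∩ ⋂ j, {x | ⟪x, y j⟫ - ψ j ≤ ⟪x, y i⟫ - ψ i} := by
    ext x; simp [cell]
  rw [h]
  exact hK.inter (MeasurableSet.iInter fun j =>
    (isClosed_le (by fun_prop) (by fun_prop)).measurableSet)

lemma continuous_pot (y : ι → Euc d) (ψ : ι → ℝ) : Continuous (pot y ψ) :=
  Continuous.finset_sup'_apply _ fun i _ => by fun_prop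

lemma pot_sub_le_of_forall {c : ℝ} (h : ∀ i, ψ' i - ψ i ≤ c) (x : Euc d) :
    pot y ψ x - pot y ψ' x ≤ c := by
  obtain ⟨i, hi⟩ := exists_pot_eq y ψ x
  linarith [le_pot y ψ' x i, h i]

lemma pot_lipschitz {R : ℝ} (hy : ∀ i, ‖y i‖ ≤ R) (x x' : Euc d) :
    |pot y ψ x - pot y ψ x'| ≤ R * ‖x - x'‖ := by
  have key : ∀ a b : Euc d, pot y ψ a - pot y ψ b ≤ R * ‖a - b‖ := fun a b => by
    obtain ⟨i, hi⟩ := exists_pot_eq y ψ a
    have h1 : ⟪a - b, y i⟫ ≤ ‖a - b‖ * R :=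
      (real_inner_le_norm _ _).trans (mul_le_mul_of_nonneg_left (hy i) (norm_nonneg _))
    rw [inner_sub_left] at h1
    linarith [le_pot y ψ b i]
  have h2 := key x' x
  rw [norm_sub_rev] at h2
  exact abs_sub_le_iff.2 ⟨key x x', h2⟩

lemma convexOn_pot (y : ι → Euc d) (ψ : ι → ℝ) : ConvexOn ℝ univ (pot y ψ) := by
  refine ⟨convex_univ, fun x _ z _ a b ha hb hab => pot_le fun i => ?_⟩
  have h1 := mul_le_mul_of_nonneg_left (le_pot y ψ x i) ha
  have h2 := mul_le_mul_of_nonneg_left (le_pot y ψ z i) hb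
  simp only [inner_add_left, real_inner_smul_left, smul_eq_mul]
  obtain rfl : b = 1 - a := by linarith
  linarith

lemma volume_hyperplane {v : Euc d} (hv : v ≠ 0) (c : ℝ) :
    volume {x : Euc d | ⟪x, v⟫ = c} = 0 := by
  have hv' : ‖v‖ ^ 2 ≠ 0 := pow_ne_zero 2 (norm_ne_zero_iff.2 hv)
  have h : {x : Euc d | ⟪x, v⟫ = c}
      = (fun x => x + -((c / ‖v‖ ^ 2) • v)) ⁻¹' ((ℝ ∙ v)ᗮ : Submodule ℝ (Euc d)) := by
    ext x
    simp only [mem_ofPred_eq, mem_preimage, SetLike.mem_coe,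
      Submodule.mem_orthogonal_singleton_iff_inner_left, inner_add_left, inner_neg_left,
      real_inner_smul_left, real_inner_self_eq_norm_sq, div_mul_cancel₀ _ hv']
    constructor <;> intro h <;> linarith
  rw [h, measure_preimage_add_right, Measure.addHaar_submodule]
  intro htop
  have := (Submodule.mem_orthogonal_singleton_iff_inner_left (u := v) (v := v)).1
    (htop ▸ Submodule.mem_top)
  exact hv (inner_self_eq_zero.1 this)

omit [Fintype ι] [Nonempty ι] in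
lemma aedisjoint_cell (hy : Function.Injective y) :
    Pairwise (Function.onFun (AEDisjoint volume) (cell K y ψ)) := by
  intro i j hij
  refine measure_mono_null ?_ (volume_hyperplane (sub_ne_zero.2 (hy.ne hij)) (ψ i - ψ j))
  rintro x ⟨hi, hj⟩
  have h1 := hi.2 j
  have h2 := hj.2 i
  simp only [mem_ofPred_eq, inner_sub_right]
  linarith

lemma sum_setIntegral_cell (hK : MeasurableSet K) (hy : Function.Injective y) {g : Euc d → ℝ}
    (hg : IntegrableOn g K) : ∑ i, ∫ x in cell K y ψ i, g x = ∫ x in K, g x := by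
  have h := integral_iUnion_ae (μ := volume) (f := g) (s := cell K y ψ)
    (fun i => (measurableSet_cell hK i).nullMeasurableSet) (aedisjoint_cell hy)
    (by rwa [iUnion_cell])
  rw [iUnion_cell, tsum_fintype] at h
  exact h.symm

omit [Fintype ι] [Nonempty ι] in
lemma midpoint_mem_cell (hK : Convex ℝ K) {i : ι} {x z : Euc d} (hx : x ∈ cell K y ψ i)
    (hz : z ∈ cell K y ψ' i) :
    (2 : ℝ)⁻¹ • (x + z) ∈ cell K y (fun j => (ψ j + ψ' j) / 2) i := by
  refine ⟨?_, fun j => ?_⟩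
  · rw [smul_add]
    exact hK hx.1 hz.1 (by norm_num) (by norm_num) (by norm_num)
  · have := hx.2 j
    have := hz.2 j
    simp only [real_inner_smul_left, inner_add_left]
    linarith

end Vale.Agent.P074
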