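import Vale.Agent.P074.Third.Potentials
import Vale.Agent.P074.Third.SemidiscreteMap
import Vale.Agent.P074.SecondDiff
import Mathlib.Algebra.Order.Ring.Pow
import Mathlib.Analysis.SpecialFunctions.Pow.Real

/-!
# From the potentials to their gradients: the exponent one third for discrete targets

For a translation `t` the derivative `⟪U - T, t⟫` differs from the increment of `u` by two Bregman
terms, each bounded by `2 R ‖t‖` and by a second difference, of integral `O(‖t‖ ^ 2)`.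
-/

open MeasureTheory Metric Set
open scoped ENNReal RealInnerProductSpace

namespace Vale.Agent.P074

variable {d : ℕ}

/-- Translating a convex body moves its boundary layer linearly. -/
theorem exists_shift_diff_bound (hd : 0 < d) {K : Set (Euc d)} (hK : IsCompact K)
    (hconv : Convex ℝ K) (hKint : (interior K).Nonempty) :
    ∃ Q : ℝ, 0 ≤ Q ∧ ∀ t : Euc d, volume.real (K \ (fun x => x + t) ⁻¹' K) ≤ Q * ‖t‖ := by
  obtain ⟨x₀, hx₀⟩ := hKint
  obtain ⟨r, hr, hball⟩ := nhds_basis_closedBall.mem_iff.1 (mem_interior_iff_mem_nhds.1 hx₀)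
  refine ⟨d * volume.real K / r, by positivity, fun t => ?_⟩
  set s := ‖t‖ / r
  have hs : 0 ≤ s := by positivity
  rw [show (d : ℝ) * volume.real K / r * ‖t‖ = d * s * volume.real K by simp only [s]; ring]
  rcases le_or_gt s 1 with hs1 | hs1
  · set H := AffineMap.homothety x₀ (1 - s) '' K
    have hHK : H ⊆ K := by
      rintro _ ⟨k, hk, rfl⟩
      rw [AffineMap.homothety_apply, vsub_eq_sub, vadd_eq_add, add_comm]
      exact hconv.add_smul_sub_mem (interior_subset hx₀) hk ⟨by linarith, by linarith⟩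
    have hHt : H ⊆ (fun x => x + t) ⁻¹' K := by
      rintro _ ⟨k, hk, rfl⟩
      rw [mem_preimage, AffineMap.homothety_apply, vsub_eq_sub, vadd_eq_add]
      rcases eq_or_ne t 0 with rfl | ht
      · rw [add_zero, add_comm]
        exact hconv.add_smul_sub_mem (interior_subset hx₀) hk ⟨by linarith, by linarith⟩
      have hs' : 0 < s := by simp only [s]; positivity
      have hb : x₀ + s⁻¹ • t ∈ K := by
        refine hball ?_
        rw [mem_closedBall_iff_norm, add_sub_cancel_left, norm_smul, Real.norm_eq_abs,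
          abs_of_pos (inv_pos.2 hs')]
        simp only [s, inv_div]
        rw [div_mul_cancel₀ _ (norm_ne_zero_iff.2 ht)]
      have := hconv hb hk hs (sub_nonneg.2 hs1) (add_sub_cancel _ _)
      convert this using 1
      match_scalars <;> field_simp
      ring
    have hHm : MeasurableSet H :=
      (hK.image (AffineMap.homothety_continuous x₀ (1 - s))).measurableSet
    have hH : volume.real H = (1 - s) ^ d * volume.real K := by
      simp only [Measure.real, H, Measure.addHaar_image_homothety, finrank_euclideanSpace_fin,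
        ENNReal.toReal_mul, abs_pow, abs_of_nonneg (sub_nonneg.2 hs1),
        ENNReal.toReal_ofReal (pow_nonneg (sub_nonneg.2 hs1) d)]
    calc volume.real (K \ (fun x => x + t) ⁻¹' K) ≤ volume.real (K \ H) :=
          measureReal_mono (sdiff_subset_sdiff_right hHt)
            ((measure_mono sdiff_subset).trans_lt hK.measure_lt_top).ne
      _ = (1 - (1 - s) ^ d) * volume.real K := by
          rw [measureReal_sdiff hHK hHm hK.measure_lt_top.ne, hH]; ring
      _ ≤ d * s * volume.real K := by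
          refine mul_le_mul_of_nonneg_right ?_ measureReal_nonneg
          have := one_add_mul_le_pow (show -2 ≤ -s by linarith) d
          rw [← sub_eq_add_neg] at this
          linarith
  · refine (measureReal_mono sdiff_subset hK.measure_lt_top.ne).trans
      (le_mul_of_one_le_left measureReal_nonneg ?_)
    exact one_le_mul_of_one_le_of_one_le (by exact_mod_cast hd) hs1.le

variable {ι : Type*} [Fintype ι] [Nonempty ι]

lemma bregman_bounds {y : ι → Euc d} {ψ : ι → ℝ} {R : ℝ} (hy : ∀ i, ‖y i‖ ≤ R) {x t g : Euc d}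
    (hg : ∀ z, pot y ψ x + ⟪g, z - x⟫ ≤ pot y ψ z) (hgR : ‖g‖ ≤ R) :
    0 ≤ pot y ψ (x + t) - pot y ψ x - ⟪g, t⟫ ∧
    pot y ψ (x + t) - pot y ψ x - ⟪g, t⟫ ≤ 2 * R * ‖t‖ ∧
    pot y ψ (x + t) - pot y ψ x - ⟪g, t⟫
      ≤ pot y ψ (x + t) + pot y ψ (x - t) - 2 * pot y ψ x := by
  have h1 := hg (x + t)
  have h2 := hg (x - t)
  rw [add_sub_cancel_left] at h1
  rw [sub_sub_cancel_left, inner_neg_right] at h2
  have h3 := (abs_le.1 (pot_lipschitz hy (ψ := ψ) (x + t) x)).2
  rw [add_sub_cancel_left] at h3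
  have h4 : -(R * ‖t‖) ≤ ⟪g, t⟫ := by
    have := (abs_le.1 (abs_real_inner_le_norm g t)).1
    nlinarith [mul_le_mul_of_nonneg_right hgR (norm_nonneg t)]
  exact ⟨by linarith, by linarith, by linarith⟩

/-- The increment of the potentials in one direction controls the component of `U - T`. -/
theorem directional_bound {K : Set (Euc d)} (hK : IsCompact K) {y y' : ι → Euc d} {ψ ψ' : ι → ℝ}
    {R' : ℝ} (hR' : 0 < R') (hyR' : ∀ i, ‖y i‖ ≤ R') (hy'R' : ∀ i, ‖y' i‖ ≤ R')
    {T U : Euc d → Euc d} (hTm : Measurable T) (hUm : Measurable U) (hTR : ∀ x, ‖T x‖ ≤ R')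
    (hUR : ∀ x, ‖U x‖ ≤ R')
    (hTsub : ∀ x ∈ K, ∀ z, pot y ψ x + ⟪T x, z - x⟫ ≤ pot y ψ z)
    (hUsub : ∀ x ∈ K, ∀ z, pot y' ψ' x + ⟪U x, z - x⟫ ≤ pot y' ψ' z)
    {C₀ Q : ℝ}
    (hsd : ∀ (φ : Euc d → ℝ) (L : ℝ), Continuous φ → 0 ≤ L →
      (∀ x y, |φ x - φ y| ≤ L * ‖x - y‖) → ∀ t : Euc d, ‖t‖ ≤ 1 →
      ∫ x in K, (φ (x + t) + φ (x - t) - 2 * φ x) ≤ C₀ * L * ‖t‖ ^ 2)
    (hshift : ∀ t : Euc d, volume.real (K \ (fun x => x + t) ⁻¹' K) ≤ Q * ‖t‖)
    (c : ℝ) (t : Euc d) (ht : ‖t‖ ≤ 1) :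
    ∫ x in K, ⟪U x - T x, t⟫ ^ 2
      ≤ 8 * (∫ x in K, (pot y' ψ' x - pot y ψ x - c) ^ 2)
        + (8 * R' ^ 2 * C₀ + 4 * R' ^ 2 * Q) * ‖t‖ ^ 3 := by
  set v : Euc d → ℝ := fun x => pot y' ψ' x - pot y ψ x - c
  set P := ∫ x in K, v x ^ 2
  have hφ : Continuous (pot y ψ) := continuous_pot y ψ
  have hφ' : Continuous (pot y' ψ') := continuous_pot y' ψ'
  have hv : Continuous v := (hφ'.sub hφ).sub continuous_const
  have hio : ∀ {u : Euc d → ℝ}, Continuous u → IntegrableOn u K :=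
    fun hu => hu.continuousOn.integrableOn_compact hK
  have hbdd : ∀ x, ‖U x - T x‖ ≤ 2 * R' := fun x => by
    linarith [norm_sub_le (U x) (T x), hTR x, hUR x]
  set K' : Set (Euc d) := (fun x => x + t) ⁻¹' K
  have hK'm : MeasurableSet K' := hK.measurableSet.preimage (measurable_id.add_const t)
  set sd : Euc d → ℝ := fun x => (pot y ψ (x + t) + pot y ψ (x - t) - 2 * pot y ψ x)
    + (pot y' ψ' (x + t) + pot y' ψ' (x - t) - 2 * pot y' ψ' x)
  set f₁ : Euc d → ℝ := fun x => K'.indicator (fun x => 4 * v (x + t) ^ 2) x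
  set f₂ : Euc d → ℝ := fun x => 4 * v x ^ 2 + 4 * R' * ‖t‖ * sd x
  set f₃ : Euc d → ℝ := fun x => K'ᶜ.indicator (fun _ => 4 * R' ^ 2 * ‖t‖ ^ 2) x
  have hsdc : Continuous sd := by fun_prop
  have hf₁ : IntegrableOn f₁ K :=
    (hio (((hv.comp (continuous_add_const t)).pow 2).const_mul 4)).indicator hK'm
  have hf₂ : IntegrableOn f₂ K :=
    hio (((hv.pow 2).const_mul 4).add (hsdc.const_mul _))
  have hf₃ : IntegrableOn f₃ K := (hio continuous_const).indicator hK'm.compl
  have hpt : ∀ x ∈ K, ⟪U x - T x, t⟫ ^ 2 ≤ f₁ x + f₂ x + f₃ x := fun x hx => by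
    obtain ⟨a0, a1, a2⟩ := bregman_bounds hyR' (hTsub x hx) (hTR x) (t := t)
    obtain ⟨b0, b1, b2⟩ := bregman_bounds hy'R' (hUsub x hx) (hUR x) (t := t)
    set a := pot y ψ (x + t) - pot y ψ x - ⟪T x, t⟫
    set b := pot y' ψ' (x + t) - pot y' ψ' x - ⟪U x, t⟫
    have hsd0 : a + b ≤ sd x := by simp only [sd]; linarith
    have hnn : 0 ≤ 4 * v x ^ 2 + 4 * R' * ‖t‖ * sd x := by
      have : 0 ≤ 4 * R' * ‖t‖ := by positivity
      nlinarith [mul_le_mul_of_nonneg_left hsd0 this, sq_nonneg (v x)]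
    by_cases hxt : x ∈ K'
    · simp only [f₁, f₂, f₃, indicator_of_mem hxt, indicator_of_notMem (notMem_compl_iff.2 hxt),
        add_zero]
      have e : ⟪U x - T x, t⟫ = (v (x + t) - v x) + (a - b) := by
        simp only [v, a, b, inner_sub_left]; ring
      rw [e]
      nlinarith [sq_nonneg (v (x + t) - v x - (a - b)), sq_nonneg (v (x + t) + v x),
        mul_le_mul_of_nonneg_left hsd0 (by positivity : (0 : ℝ) ≤ 4 * R' * ‖t‖),
        mul_le_mul_of_nonneg_left a1 a0, mul_le_mul_of_nonneg_left b1 b0, mul_nonneg a0 b0]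
    · simp only [f₁, f₂, f₃, indicator_of_notMem hxt, indicator_of_mem (mem_compl hxt), zero_add]
      have h1 : |⟪U x - T x, t⟫| ≤ 2 * R' * ‖t‖ := (abs_real_inner_le_norm _ _).trans
        (mul_le_mul_of_nonneg_right (hbdd x) (norm_nonneg t))
      nlinarith [sq_le_sq' (abs_le.1 h1).1 (abs_le.1 h1).2]
  have hiI : IntegrableOn (fun x => ⟪U x - T x, t⟫ ^ 2) K :=
    Measure.integrableOn_of_bounded (M := (2 * R' * ‖t‖) ^ 2) hK.measure_lt_top.ne
      ((((hUm.sub hTm).inner measurable_const).pow_const 2)).aestronglyMeasurable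
      (ae_of_all _ fun x => by
        rw [Real.norm_eq_abs, abs_pow]
        exact pow_le_pow_left₀ (abs_nonneg _) ((abs_real_inner_le_norm _ _).trans
          (mul_le_mul_of_nonneg_right (hbdd x) (norm_nonneg t))) 2)
  have hisum : IntegrableOn (fun x => f₁ x + f₂ x + f₃ x) K := (hf₁.add hf₂).add hf₃
  refine (setIntegral_mono_on hiI hisum hK.measurableSet hpt).trans ?_
  rw [integral_add (f := fun x => f₁ x + f₂ x) (hf₁.add hf₂) hf₃, integral_add hf₁ hf₂]
  have i1 : ∫ x in K, f₁ x ≤ 4 * P := by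
    simp only [f₁, P, ← integral_const_mul]
    rw [setIntegral_indicator hK'm]
    refine le_trans (setIntegral_mono_set (t := K') ?_ (ae_of_all _ fun x => ?_)
      inter_subset_right.eventuallyLE) (le_of_eq ?_)
    · exact (((hv.comp (continuous_add_const t)).pow 2).const_mul 4).continuousOn
        |>.integrableOn_compact ((Homeomorph.addRight t).isCompact_preimage.2 hK)
    · exact mul_nonneg zero_le_four (sq_nonneg _)
    · exact (measurePreserving_add_right (volume : Measure (Euc d)) t).setIntegral_preimage_emb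
        (measurableEmbedding_addRight t) (fun x => 4 * v x ^ 2) K
  have i2 : ∫ x in K, f₂ x ≤ 4 * P + 8 * R' ^ 2 * C₀ * ‖t‖ ^ 3 := by
    have j1 : IntegrableOn (fun x => 4 * v x ^ 2) K := hio ((hv.pow 2).const_mul 4)
    have j2 : IntegrableOn (fun x => 4 * R' * ‖t‖ * sd x) K := hio (hsdc.const_mul _)
    simp only [f₂]
    rw [integral_add j1 j2, integral_const_mul, integral_const_mul]
    have s1 := hsd (pot y ψ) R' hφ hR'.le (pot_lipschitz hyR') t ht
    have s2 := hsd (pot y' ψ') R' hφ' hR'.le (pot_lipschitz hy'R') t ht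
    have e : ∫ x in K, sd x = (∫ x in K, (pot y ψ (x + t) + pot y ψ (x - t) - 2 * pot y ψ x))
        + ∫ x in K, (pot y' ψ' (x + t) + pot y' ψ' (x - t) - 2 * pot y' ψ' x) :=
      integral_add (hio (by fun_prop)) (hio (by fun_prop))
    rw [e]
    nlinarith [mul_le_mul_of_nonneg_left (add_le_add s1 s2)
      (by positivity : (0 : ℝ) ≤ 4 * R' * ‖t‖)]
  have i3 : ∫ x in K, f₃ x ≤ 4 * R' ^ 2 * Q * ‖t‖ ^ 3 := by
    simp only [f₃]
    rw [setIntegral_indicator hK'm.compl, setIntegral_const, smul_eq_mul, ← sdiff_eq]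
    nlinarith [mul_le_mul_of_nonneg_right (hshift t)
      (by positivity : (0 : ℝ) ≤ 4 * R' ^ 2 * ‖t‖ ^ 2)]
  linarith

/-- A vector field is controlled by its components. -/
lemma sq_integral_norm_le {S : Set (Euc d)} (hS : volume S ≠ ⊤) {G : Euc d → Euc d}
    (hG : Measurable G) {b : ℝ} (hb : ∀ x, ‖G x‖ ≤ b) {h A : ℝ}
    (hA : ∀ i : Fin d, ∫ x in S, ⟪G x, EuclideanSpace.single i h⟫ ^ 2 ≤ A) :
    h ^ 2 * ∫ x in S, ‖G x‖ ^ 2 ≤ d * A := by
  have e : ∀ x, h ^ 2 * ‖G x‖ ^ 2 = ∑ i : Fin d, ⟪G x, EuclideanSpace.single i h⟫ ^ 2 := fun x => by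
    simp only [EuclideanSpace.norm_sq_eq, EuclideanSpace.inner_single_right, Finset.mul_sum,
      Real.norm_eq_abs, sq_abs, mul_pow, conj_trivial]
  rw [← integral_const_mul, integral_congr_ae (ae_of_all _ e), integral_finsetSum]
  · calc ∑ i : Fin d, ∫ x in S, ⟪G x, EuclideanSpace.single i h⟫ ^ 2 ≤ ∑ _i : Fin d, A :=
          Finset.sum_le_sum fun i _ => hA i
      _ = _ := by simp
  · intro i _
    refine Measure.integrableOn_of_bounded (M := (b * |h|) ^ 2) hS
      ((hG.inner measurable_const).pow_const 2).aestronglyMeasurable (ae_of_all _ fun x => ?_)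
    rw [Real.norm_eq_abs, abs_pow]
    refine pow_le_pow_left₀ (abs_nonneg _) ((abs_real_inner_le_norm _ _).trans ?_) 2
    rw [show ‖(EuclideanSpace.single i h : Euc d)‖ = |h| by simp]
    exact mul_le_mul_of_nonneg_right (hb x) (abs_nonneg h)

/-- The choice of the interpolation step. -/
lemma interpolation_arith {X P A C₁ C₂ h : ℝ} {n : ℝ} (hn : 0 ≤ n) (hh : 0 < h)
    (h1 : h ^ 2 * X ≤ n * (8 * P + C₁ * h ^ 3)) (hP : P ≤ A * h ^ 3)
    (hC : n * (8 * A + C₁) ≤ C₂) : X ≤ C₂ * h := by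
  refine le_of_mul_le_mul_left (h1.trans ?_) (pow_pos hh 2)
  calc n * (8 * P + C₁ * h ^ 3) ≤ n * (8 * A + C₁) * h ^ 3 := by
        linarith [mul_le_mul_of_nonneg_left hP hn]
    _ ≤ C₂ * h ^ 3 := mul_le_mul_of_nonneg_right hC (pow_nonneg hh.le 3)
    _ = h ^ 2 * (C₂ * h) := by ring

/-- The exponent one third for finitely supported targets, uniformly in the targets. -/
theorem semidiscrete_bound (hd : 0 < d) (K : Set (Euc d)) (hK : IsCompact K) (hconv : Convex ℝ K)
    (hKint : (interior K).Nonempty) (R : ℝ) :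
    ∃ C : ℝ, 0 ≤ C ∧ ∀ (ι : Type) [Fintype ι] [Nonempty ι] (y y' : ι → Euc d) (w : ι → ℝ),
      Function.Injective y → Function.Injective y' → (∀ i, ‖y i‖ ≤ R) → (∀ i, ‖y' i‖ ≤ R) →
      (∀ i, 0 < w i) → ∑ i, w i = 1 → ∀ E : ℝ, 0 < E → ∑ i, w i * ‖y i - y' i‖ ^ 2 ≤ E →
      ∃ T U : Euc d → Euc d, IsOptimalMap (uniformMeasure K) (atoms w y) T ∧
        IsOptimalMap (uniformMeasure K) (atoms w y') U ∧
        ∫⁻ x, ‖T x - U x‖ₑ ^ 2 ∂uniformMeasure K ≤ ENNReal.ofReal (C * E ^ (1 / 3 : ℝ)) := by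
  obtain ⟨D, hD⟩ := hK.isBounded.exists_norm_le
  set R' : ℝ := max (max R D) 1
  have hR' : 0 < R' := lt_max_of_lt_right one_pos
  have hKR : ∀ x ∈ K, ‖x‖ ≤ R' := fun x hx =>
    (hD x hx).trans ((le_max_right _ _).trans (le_max_left _ _))
  obtain ⟨C₀, hC₀, hsd⟩ := exists_secondDiff_bound hK hconv hKint 1
  obtain ⟨Q, hQ, hshift⟩ := exists_shift_diff_bound hd hK hconv hKint
  have hK0 : volume K ≠ 0 := (Measure.measure_pos_of_nonempty_interior volume hKint).ne'
  set V := volume.real K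
  have hV : 0 < V := ENNReal.toReal_pos hK0 hK.measure_lt_top.ne
  set C₁ : ℝ := 8 * R' ^ 2 * C₀ + 4 * R' ^ 2 * Q
  set C₂ : ℝ := d * (8 * ((700 * R') ^ 2 * V) + C₁) + 4 * R' ^ 2 * V
  refine ⟨V⁻¹ * C₂, by positivity, fun ι _ _ y y' w hy hy' hyR hy'R hw hw1 E hE hcost => ?_⟩
  have hyR' : ∀ i, ‖y i‖ ≤ R' := fun i => (hyR i).trans ((le_max_left _ _).trans (le_max_left _ _))
  have hy'R' : ∀ i, ‖y' i‖ ≤ R' := fun i =>
    (hy'R i).trans ((le_max_left _ _).trans (le_max_left _ _))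
  set μ : ι → ℝ := fun i => w i * V with hμdef
  have hμV : ∑ i, μ i = V := by rw [hμdef, ← Finset.sum_mul, hw1, one_mul]
  obtain ⟨ψ, ψ', hm, hm', c, hP⟩ := potential_stability hK hconv hKint hR' hKR hy hy' hyR' hy'R'
    (μ := μ) (fun i => mul_pos (hw i) hV) hμV
  obtain ⟨T, hT, hTR, hTsub⟩ := exists_semidiscrete_map hK hK0 hy hR'.le hyR' hm
  obtain ⟨U, hU, hUR, hUsub⟩ := exists_semidiscrete_map hK hK0 hy' hR'.le hy'R' hm'
  have hwe : (fun i => μ i / volume.real K) = w := funext fun i => mul_div_cancel_right₀ _ hV.ne'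
  rw [hwe] at hT hU
  refine ⟨T, U, hT, hU, ?_⟩
  set v : Euc d → ℝ := fun x => pot y' ψ' x - pot y ψ x - c
  set P := ∫ x in K, v x ^ 2
  have hφ : Continuous (pot y ψ) := continuous_pot y ψ
  have hφ' : Continuous (pot y' ψ') := continuous_pot y' ψ'
  have hv : Continuous v := (hφ'.sub hφ).sub continuous_const
  have hPE : P ≤ (700 * R') ^ 2 * V * E := by
    refine hP.trans ?_
    rw [mul_assoc _ V E]
    refine mul_le_mul_of_nonneg_left ?_ (sq_nonneg _)
    calc ∑ i, μ i * ‖y' i - y i‖ ^ 2 = V * ∑ i, w i * ‖y i - y' i‖ ^ 2 := by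
          rw [Finset.mul_sum]
          exact Finset.sum_congr rfl fun i _ => by rw [norm_sub_rev]; simp only [μ]; ring
      _ ≤ V * E := mul_le_mul_of_nonneg_left hcost hV.le
  have hio : ∀ {u : Euc d → ℝ}, Continuous u → IntegrableOn u K :=
    fun hu => hu.continuousOn.integrableOn_compact hK
  have hbdd : ∀ x, ‖U x - T x‖ ≤ 2 * R' := fun x => by
    linarith [norm_sub_le (U x) (T x), hTR x, hUR x]
  have hdir : ∀ t : Euc d, ‖t‖ ≤ 1 →
      ∫ x in K, ⟪U x - T x, t⟫ ^ 2 ≤ 8 * P + C₁ * ‖t‖ ^ 3 :=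
    directional_bound hK hR' hyR' hy'R' hT.1 hU.1 hTR hUR hTsub hUsub hsd hshift c
  set X := ∫ x in K, ‖U x - T x‖ ^ 2
  have hiX : IntegrableOn (fun x => ‖U x - T x‖ ^ 2) K :=
    Measure.integrableOn_of_bounded (M := (2 * R') ^ 2) hK.measure_lt_top.ne
      ((hU.1.sub hT.1).norm.pow_const 2).aestronglyMeasurable
      (ae_of_all _ fun x => by
        rw [Real.norm_eq_abs, abs_of_nonneg (sq_nonneg _)]
        exact pow_le_pow_left₀ (norm_nonneg _) (hbdd x) 2)
  have hX : X ≤ C₂ * E ^ (1 / 3 : ℝ) := by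
    rcases le_or_gt E 1 with hE1 | hE1
    · set h := E ^ (1 / 3 : ℝ)
      have hh : 0 < h := Real.rpow_pos_of_pos hE _
      have hh1 : h ≤ 1 := Real.rpow_le_one hE.le hE1 (by norm_num)
      have hh3 : h ^ 3 = E := by
        simp only [h]
        rw [← Real.rpow_natCast, ← Real.rpow_mul hE.le]
        norm_num
      have hnorm : ∀ i : Fin d, ‖(EuclideanSpace.single i h : Euc d)‖ = h := fun i => by
        simp [abs_of_pos hh]
      have h1 : h ^ 2 * X ≤ d * (8 * P + C₁ * h ^ 3) :=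
        sq_integral_norm_le hK.measure_lt_top.ne (hU.1.sub hT.1) hbdd fun i => by
          have := hdir (EuclideanSpace.single i h) (by rw [hnorm]; exact hh1)
          rwa [hnorm] at this
      refine interpolation_arith (Nat.cast_nonneg d) hh h1 (hPE.trans_eq (by rw [hh3])) ?_
      have : 0 ≤ 4 * R' ^ 2 * V := by positivity
      simp only [C₂]
      linarith
    · have h1 : X ≤ 4 * R' ^ 2 * V := by
        calc X ≤ ∫ _x in K, 4 * R' ^ 2 := setIntegral_mono_on hiX (hio continuous_const)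
              hK.measurableSet fun x _ => by nlinarith [hbdd x, norm_nonneg (U x - T x)]
          _ = _ := by rw [setIntegral_const, smul_eq_mul, mul_comm]
      refine h1.trans (le_trans ?_ (le_mul_of_one_le_right (by positivity)
        (Real.one_le_rpow hE1.le (by norm_num))))
      simp only [C₂, le_add_iff_nonneg_left]
      positivity
  have e : ∫⁻ x, ‖T x - U x‖ₑ ^ 2 ∂uniformMeasure K = ENNReal.ofReal (V⁻¹ * X) := by
    simp only [uniformMeasure, lintegral_smul_measure, smul_eq_mul]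
    rw [← ofReal_measureReal hK.measure_lt_top.ne, ← ENNReal.ofReal_inv_of_pos hV,
      ENNReal.ofReal_mul (inv_pos.2 hV).le, ofReal_integral_eq_lintegral_ofReal hiX
        (ae_of_all _ fun x => sq_nonneg _)]
    congr 1
    refine lintegral_congr fun x => ?_
    rw [← ofReal_norm, ← ENNReal.ofReal_pow (norm_nonneg _), norm_sub_rev]
  rw [e]
  refine ENNReal.ofReal_le_ofReal ?_
  rw [mul_assoc]
  exact mul_le_mul_of_nonneg_left hX (inv_pos.2 hV).le

end Vale.Agent.P074
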