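import Vale.Agent.P074.Third.Tilt
import Vale.Agent.P074.Third.Cells
import Mathlib.Analysis.Real.Sqrt

/-!
# The barycentres of Laguerre cells are stable in the cell masses

For two families of cells with the same sites the weighted squared displacement of the barycentres
is at most a dimension-free multiple of `∑ (m i - m' i) ^ 2 / m i`. Consequently the first moments
of the cells react linearly to a perturbation of the source density.
-/

open MeasureTheory Set
open scoped ENNReal RealInnerProductSpace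

namespace Vale.Agent.P074

variable {d : ℕ} {ι : Type*} [Fintype ι] [Nonempty ι]

lemma exp_sq_sub_le {R τ : ℝ} (hR : 0 ≤ R) (hτ : 0 ≤ τ) (hθ : τ * R ^ 2 ≤ 1 / 4) {x z : Euc d}
    (hx : ‖x‖ ≤ R) (hz : ‖z‖ ≤ R) :
    |Real.exp (τ * ‖x‖ ^ 2) - Real.exp (τ * ‖z‖ ^ 2)| ≤ 3 * τ * R * ‖x - z‖ := by
  wlog h : ‖z‖ ≤ ‖x‖ generalizing x z
  · rw [abs_sub_comm, norm_sub_rev]
    exact this hz hx (le_of_not_ge h)
  have h1 : τ * ‖z‖ ^ 2 ≤ τ * ‖x‖ ^ 2 := by gcongr
  rw [abs_of_nonneg (sub_nonneg.2 (Real.exp_le_exp.2 h1))]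
  set a := τ * ‖x‖ ^ 2
  set b := τ * ‖z‖ ^ 2
  have ha : a ≤ 1 / 4 := le_trans (by simp only [a]; gcongr) hθ
  have ha0 : 0 ≤ a := by positivity
  have he : Real.exp a ≤ 4 / 3 := by
    refine (Real.exp_bound_div_one_sub_of_interval ha0 (by linarith)).trans ?_
    rw [div_le_div_iff₀ (by linarith) (by norm_num)]; linarith
  have h2 : Real.exp a - Real.exp b ≤ Real.exp a * (a - b) := by
    have h := mul_le_mul_of_nonneg_left (Real.add_one_le_exp (b - a)) (Real.exp_pos a).le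
    rw [← Real.exp_add, show a + (b - a) = b by ring] at h
    nlinarith
  have h3 : a - b ≤ 2 * τ * R * ‖x - z‖ := by
    have h4 : ‖x‖ ^ 2 - ‖z‖ ^ 2 ≤ 2 * R * ‖x - z‖ := by
      nlinarith [norm_sub_norm_le x z, norm_nonneg z, norm_nonneg x]
    simp only [a, b]
    nlinarith
  nlinarith [mul_le_mul he h3 (by linarith) (by norm_num : (0 : ℝ) ≤ 4 / 3),
    mul_nonneg (mul_nonneg hτ hR) (norm_nonneg (x - z))]

lemma sq_setIntegral_le {A : Set (Euc d)} {g : Euc d → ℝ} (hg : IntegrableOn g A)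
    (hg2 : IntegrableOn (fun x => g x ^ 2) A) (hA : volume A ≠ ⊤) (h0 : 0 < volume.real A) :
    (∫ x in A, g x) ^ 2 ≤ volume.real A * ∫ x in A, g x ^ 2 := by
  set m := volume.real A
  set J := ∫ x in A, g x
  have h : 0 ≤ ∫ x in A, ((m ^ 2 * g x ^ 2 - 2 * m * J * g x) + J ^ 2) :=
    integral_nonneg fun x => by
      simp only [Pi.zero_apply]
      nlinarith [sq_nonneg (m * g x - J)]
  have hi1 : IntegrableOn (fun x => m ^ 2 * g x ^ 2 - 2 * m * J * g x) A :=
    (hg2.const_mul _).sub (hg.const_mul _)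
  rw [integral_add hi1 (integrableOn_const (C := J ^ 2) hA),
    integral_sub (hg2.const_mul _) (hg.const_mul _), integral_const_mul, integral_const_mul,
    setIntegral_const, smul_eq_mul] at h
  refine le_of_mul_le_mul_left ?_ h0
  linarith

lemma hellinger_term_le {m m' g g' : ℝ} (hm : 0 < m) (hm1 : m / 2 ≤ m') (hm2 : m' ≤ 3 * m / 2)
    (hg : 3 / 4 ≤ g) (hg1 : g ≤ 1) (hg' : 3 / 4 ≤ g') :
    (m * g + m' * g') / 2 - Real.sqrt (m * g * (m' * g'))
        ≤ 4 / 3 * ((m' - m) ^ 2 / m) + 3 * (m * (g - g') ^ 2) ∧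
      m / 2 ≤ Real.sqrt (m * g * (m' * g')) := by
  have hG : 0 < m * g := by positivity
  have hm' : 0 < m' := by linarith
  have hG' : 0 < m' * g' := by positivity
  set a := Real.sqrt (m * g)
  set b := Real.sqrt (m' * g')
  have ha : a ^ 2 = m * g := Real.sq_sqrt hG.le
  have hb : b ^ 2 = m' * g' := Real.sq_sqrt hG'.le
  have hab : Real.sqrt (m * g * (m' * g')) = a * b := Real.sqrt_mul hG.le _
  constructor
  · have h1 : (a - b) ^ 2 * (m * g) ≤ (m * g - m' * g') ^ 2 := by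
      rw [← ha, ← hb, show (a ^ 2 - b ^ 2) ^ 2 = (a - b) ^ 2 * (a + b) ^ 2 by ring]
      refine mul_le_mul_of_nonneg_left ?_ (sq_nonneg _)
      nlinarith [Real.sqrt_nonneg (m * g), Real.sqrt_nonneg (m' * g')]
    have h2 : (m * g - m' * g') ^ 2 ≤ 2 * (m' - m) ^ 2 + 9 / 2 * (m ^ 2 * (g - g') ^ 2) := by
      have hg2 : g ^ 2 ≤ 1 := by nlinarith
      have hm2' : m' ^ 2 ≤ 9 / 4 * m ^ 2 := by nlinarith
      nlinarith [sq_nonneg ((m - m') * g - m' * (g - g')),
        mul_le_mul_of_nonneg_left hg2 (sq_nonneg (m' - m)),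
        mul_le_mul_of_nonneg_right hm2' (sq_nonneg (g - g'))]
    have h3 : (a - b) ^ 2 ≤ 4 / 3 * (2 * ((m' - m) ^ 2 / m) + 9 / 2 * (m * (g - g') ^ 2)) := by
      have e : 4 / 3 * (2 * ((m' - m) ^ 2 / m) + 9 / 2 * (m * (g - g') ^ 2))
          = (2 * (m' - m) ^ 2 + 9 / 2 * (m ^ 2 * (g - g') ^ 2)) / (3 / 4 * m) := by
        field_simp
      rw [e, le_div_iff₀ (by positivity)]
      nlinarith [mul_le_mul_of_nonneg_left (mul_le_mul_of_nonneg_left hg hm.le)
        (sq_nonneg (a - b))]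
    rw [hab, ← ha, ← hb]
    linarith [show (a - b) ^ 2 = a ^ 2 - 2 * (a * b) + b ^ 2 by ring]
  · refine Real.le_sqrt_of_sq_le ?_
    nlinarith [mul_le_mul (mul_le_mul_of_nonneg_left hg hm.le)
      (mul_le_mul hm1 hg' (by norm_num) hm'.le) (by positivity) hG.le]

variable {K : Set (Euc d)} {y : ι → Euc d} {R : ℝ}

/-- Stability of the barycentres in the masses. -/
theorem centroid_stability (hK : IsCompact K) (hconv : Convex ℝ K) (hR : 0 < R)
    (hKR : ∀ x ∈ K, ‖x‖ ≤ R) (hy : Function.Injective y) (ψ ψ' : ι → ℝ)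
    (hm : ∀ i, 0 < volume.real (cell K y ψ i))
    (hclose : ∀ i, |volume.real (cell K y ψ' i) - volume.real (cell K y ψ i)|
      ≤ volume.real (cell K y ψ i) / 2)
    (v : ι → Euc d) (hv : ∀ i, ‖v i‖ ≤ 1) :
    ∑ i, volume.real (cell K y ψ i) *
        ((∫ x in cell K y ψ i, ⟪v i, x⟫) / volume.real (cell K y ψ i)
          - (∫ x in cell K y ψ' i, ⟪v i, x⟫) / volume.real (cell K y ψ' i)) ^ 2
      ≤ 100000 * R ^ 2 *
        ∑ i, (volume.real (cell K y ψ' i) - volume.real (cell K y ψ i)) ^ 2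
          / volume.real (cell K y ψ i) := by
  set A := cell K y ψ
  set B := cell K y ψ'
  set τ : ℝ := 1 / (432 * R ^ 2) with hτdef
  have hτ : 0 < τ := by positivity
  have hθ : τ * R ^ 2 = 1 / 432 := by rw [hτdef]; field_simp
  have hgc := continuous_gauss (d := d) τ
  have hio : ∀ {u : Euc d → ℝ}, Continuous u → ∀ {S : Set (Euc d)}, S ⊆ K → IntegrableOn u S :=
    fun hu S hS => (hu.continuousOn.integrableOn_compact hK).mono_set hS
  have hfin : ∀ {S : Set (Euc d)}, S ⊆ K → volume S ≠ ⊤ := fun hS =>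
    ((measure_mono hS).trans_lt hK.measure_lt_top).ne
  have hgb : ∀ x ∈ K, 3 / 4 ≤ gauss τ x ∧ gauss τ x ≤ 1 := fun x hx => by
    constructor
    · have h1 : τ * ‖x‖ ^ 2 ≤ τ * R ^ 2 :=
        mul_le_mul_of_nonneg_left (pow_le_pow_left₀ (norm_nonneg _) (hKR x hx) 2) hτ.le
      unfold gauss
      linarith [Real.add_one_le_exp (-(τ * ‖x‖ ^ 2))]
    · exact Real.exp_le_one_iff.2 (by linarith [mul_nonneg hτ.le (sq_nonneg ‖x‖)])
  have hmass : ∀ {S : Set (Euc d)}, MeasurableSet S → S ⊆ K →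
      3 / 4 * volume.real S ≤ ∫ x in S, gauss τ x ∧ ∫ x in S, gauss τ x ≤ volume.real S := by
    intro S hS hSK
    constructor
    · have h := setIntegral_mono_on (integrableOn_const (C := (3 / 4 : ℝ)) (hfin hSK))
        (hio hgc hSK) hS fun x hx => (hgb x (hSK hx)).1
      rw [setIntegral_const, smul_eq_mul] at h
      linarith
    · have h := setIntegral_mono_on (hio hgc hSK)
        (integrableOn_const (C := (1 : ℝ)) (hfin hSK)) hS fun x hx => (hgb x (hSK hx)).2
      rwa [setIntegral_const, smul_eq_mul, mul_one] at h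
  set m : ι → ℝ := fun i => volume.real (A i) with hmdef
  set m' : ι → ℝ := fun i => volume.real (B i) with hm'def
  have hm' : ∀ i, m i / 2 ≤ m' i ∧ m' i ≤ 3 * m i / 2 := fun i => by
    have := abs_le.1 (hclose i); simp only [hmdef, hm'def]; constructor <;> linarith
  have hmA : ∀ i, MeasurableSet (A i) := fun i => measurableSet_cell hK.measurableSet i
  have hmB : ∀ i, MeasurableSet (B i) := fun i => measurableSet_cell hK.measurableSet i
  set g : ι → ℝ := fun i => (∫ x in A i, gauss τ x) / m i with hgdef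
  set g' : ι → ℝ := fun i => (∫ x in B i, gauss τ x) / m' i with hg'def
  have hm'0 : ∀ i, 0 < m' i := fun i => by linarith [(hm' i).1, hm i]
  have hG : ∀ i, ∫ x in A i, gauss τ x = m i * g i := fun i => by
    rw [hgdef]; exact (mul_div_cancel₀ _ (hm i).ne').symm
  have hG' : ∀ i, ∫ x in B i, gauss τ x = m' i * g' i := fun i => by
    rw [hg'def]; exact (mul_div_cancel₀ _ (hm'0 i).ne').symm
  have hgr : ∀ i, (3 / 4 ≤ g i ∧ g i ≤ 1) ∧ 3 / 4 ≤ g' i ∧ g' i ≤ 1 := fun i => by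
    obtain ⟨h1, h2⟩ := hmass (hmA i) (cell_subset i)
    obtain ⟨h3, h4⟩ := hmass (hmB i) (cell_subset i)
    exact ⟨⟨(le_div_iff₀ (hm i)).2 h1, (div_le_one (hm i)).2 h2⟩,
      (le_div_iff₀ (hm'0 i)).2 h3, (div_le_one (hm'0 i)).2 h4⟩
  set S : ℝ := ∑ i, (m' i - m i) ^ 2 / m i
  set X : ℝ := ∑ i, m i * (g i - g' i) ^ 2
  have base : ∀ (f : ι → Euc d → ℝ) (L : ℝ), (∀ i, Continuous (f i)) → 0 < L →
      (∀ i, ∀ x ∈ K, ∀ z ∈ K, |f i x - f i z| ≤ L * ‖x - z‖) →
      τ / (8 * L ^ 2) * ∑ i, m i * ((∫ x in A i, gauss τ x * f i x) / (m i * g i)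
        - (∫ x in B i, gauss τ x * f i x) / (m' i * g' i)) ^ 2 ≤ 4 / 3 * S + 3 * X := by
    intro f L hfc hL hlip
    set M := cell K y fun j => (ψ j + ψ' j) / 2
    set D : ι → ℝ := fun i => (∫ x in A i, gauss τ x * f i x) / (m i * g i)
      - (∫ x in B i, gauss τ x * f i x) / (m' i * g' i)
    have hA0 : ∀ i, 0 < m i * g i := fun i => mul_pos (hm i) (by linarith [(hgr i).1.1])
    have hB0 : ∀ i, 0 < m' i * g' i := fun i => mul_pos (hm'0 i) (by linarith [(hgr i).2.1])
    have h1 : ∀ i, Real.sqrt (m i * g i * (m' i * g' i)) * (1 + τ / (4 * L ^ 2) * D i ^ 2)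
        ≤ ∫ x in M i, gauss τ x := fun i => by
      have h := gauss_midpoint_le hK (hmA i) (hmB i) (measurableSet_cell hK.measurableSet i)
        (cell_subset i) (cell_subset i) (cell_subset i)
        (fun x hx z hz => midpoint_mem_cell hconv hx hz) hτ.le (hG i ▸ hA0 i) (hG' i ▸ hB0 i)
        (hfc i) hL fun x hx z hz => hlip i x hx.1 z hz.1
      rwa [hG, hG'] at h
    have h2 := Finset.sum_le_sum (s := Finset.univ) fun i _ => h1 i
    rw [sum_setIntegral_cell hK.measurableSet hy (hio hgc subset_rfl)] at h2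
    have h3 : ∫ x in K, gauss τ x = ∑ i, m i * g i := by
      rw [← sum_setIntegral_cell hK.measurableSet hy (ψ := ψ) (hio hgc subset_rfl)]
      exact Finset.sum_congr rfl fun i _ => hG i
    have h4 : ∫ x in K, gauss τ x = ∑ i, m' i * g' i := by
      rw [← sum_setIntegral_cell hK.measurableSet hy (ψ := ψ') (hio hgc subset_rfl)]
      exact Finset.sum_congr rfl fun i _ => hG' i
    have h5 : ∑ i, τ / (8 * L ^ 2) * (m i * D i ^ 2)
        ≤ ∑ i, ((m i * g i + m' i * g' i) / 2 - Real.sqrt (m i * g i * (m' i * g' i))) := by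
      refine le_trans (Finset.sum_le_sum (g := fun i => Real.sqrt (m i * g i * (m' i * g' i))
        * (τ / (4 * L ^ 2) * D i ^ 2)) fun i _ => ?_) ?_
      · have := (hellinger_term_le (hm i) (hm' i).1 (hm' i).2 (hgr i).1.1 (hgr i).1.2 (hgr i).2.1).2
        calc τ / (8 * L ^ 2) * (m i * D i ^ 2) = m i / 2 * (τ / (4 * L ^ 2) * D i ^ 2) := by
              field_simp; ring
          _ ≤ _ := mul_le_mul_of_nonneg_right this (by positivity)
      · simp only [mul_add, mul_one, Finset.sum_add_distrib] at h2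
        simp only [Finset.sum_sub_distrib, ← Finset.sum_div, Finset.sum_add_distrib, ← h3, ← h4]
        linarith
    rw [Finset.mul_sum]
    refine h5.trans ?_
    simp only [S, X, Finset.mul_sum, ← Finset.sum_add_distrib]
    exact Finset.sum_le_sum fun i _ =>
      (hellinger_term_le (hm i) (hm' i).1 (hm' i).2 (hgr i).1.1 (hgr i).1.2 (hgr i).2.1).1
  set e : Euc d → ℝ := fun x => Real.exp (τ * ‖x‖ ^ 2) with hedef
  have hec : Continuous e := by fun_prop
  have hge : ∀ x, gauss τ x * e x = 1 := fun x => by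
    simp only [gauss, e, ← Real.exp_add, neg_add_cancel, Real.exp_zero]
  have helip : ∀ x ∈ K, ∀ z ∈ K, |e x - e z| ≤ 3 * τ * R * ‖x - z‖ := fun x hx z hz =>
    exp_sq_sub_le hR.le hτ.le (by linarith) (hKR x hx) (hKR z hz)
  have hX : X ≤ 4 / 9 * S := by
    have h := base (fun _ => e) (3 * τ * R) (fun _ => hec) (by positivity) fun _ => helip
    simp only [hge, setIntegral_const, smul_eq_mul, mul_one] at h
    have h1 : X ≤ ∑ i, m i * (m i / (m i * g i) - m' i / (m' i * g' i)) ^ 2 := by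
      refine Finset.sum_le_sum fun i _ => mul_le_mul_of_nonneg_left ?_ (hm i).le
      obtain ⟨⟨a1, a2⟩, b1, b2⟩ := hgr i
      have hgg : 0 < g i * g' i := mul_pos (by linarith) (by linarith)
      have ga : g i ≠ 0 := by linarith
      have gb : g' i ≠ 0 := by linarith
      have ma : m i ≠ 0 := (hm i).ne'
      have mb : m' i ≠ 0 := (hm'0 i).ne'
      have e1 : m i / (m i * g i) - m' i / (m' i * g' i) = (g' i - g i) / (g i * g' i) := by
        field_simp
      rw [e1, div_pow, le_div_iff₀ (by positivity)]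
      have h01 : (g i * g' i) ^ 2 ≤ 1 := pow_le_one₀ hgg.le (mul_le_one₀ a2 (by linarith) b2)
      linarith [mul_le_mul_of_nonneg_left h01 (sq_nonneg (g i - g' i)),
        show (g' i - g i) ^ 2 = (g i - g' i) ^ 2 by ring]
    have e6 : τ / (8 * (3 * τ * R) ^ 2) = 6 := by rw [hτdef]; field_simp; norm_num
    rw [e6] at h
    linarith
  set p : ι → Euc d → ℝ := fun i x => ⟪v i, x⟫ * e x with hpdef
  have hplip : ∀ i, ∀ x ∈ K, ∀ z ∈ K, |p i x - p i z| ≤ 2 * ‖x - z‖ := fun i x hx z hz => by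
    have h1 : |⟪v i, x⟫ - ⟪v i, z⟫| ≤ ‖x - z‖ := by
      rw [← inner_sub_right]
      exact (abs_real_inner_le_norm _ _).trans (mul_le_of_le_one_left (norm_nonneg _) (hv i))
    have h2 : |⟪v i, z⟫| ≤ R := (abs_real_inner_le_norm _ _).trans
      ((mul_le_of_le_one_left (norm_nonneg _) (hv i)).trans (hKR z hz))
    have h3 : |e x| ≤ 4 / 3 := by
      have hg1 := (hgb x hx).1
      rw [abs_of_pos (Real.exp_pos _)]
      nlinarith [hge x, Real.exp_pos (τ * ‖x‖ ^ 2)]
    calc |p i x - p i z| = |(⟪v i, x⟫ - ⟪v i, z⟫) * e x + ⟪v i, z⟫ * (e x - e z)| := by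
          simp only [p]; ring_nf
      _ ≤ ‖x - z‖ * (4 / 3) + R * (3 * τ * R * ‖x - z‖) := by
          refine (abs_add_le _ _).trans (add_le_add ?_ ?_)
          · rw [abs_mul]; exact mul_le_mul h1 h3 (abs_nonneg _) (norm_nonneg _)
          · rw [abs_mul]; exact mul_le_mul h2 (helip x hx z hz) (abs_nonneg _) hR.le
      _ ≤ _ := by
          have : R * (3 * τ * R * ‖x - z‖) = 3 * (τ * R ^ 2) * ‖x - z‖ := by ring
          rw [this, hθ]; linarith [norm_nonneg (x - z)]
  have hN := base p 2 (fun i => by fun_prop) two_pos hplip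
  have hgp : ∀ i x, gauss τ x * p i x = ⟪v i, x⟫ := fun i x => by
    calc gauss τ x * p i x = gauss τ x * e x * ⟪v i, x⟫ := by simp only [p]; ring
      _ = _ := by rw [hge, one_mul]
  simp only [hgp] at hN
  set N : ι → ℝ := fun i => (∫ x in A i, ⟪v i, x⟫) / (m i * g i)
  set N' : ι → ℝ := fun i => (∫ x in B i, ⟪v i, x⟫) / (m' i * g' i)
  have hN' : ∑ i, m i * (N i - N' i) ^ 2 ≤ 41472 * R ^ 2 * S := by
    have h8 : τ / (8 * 2 ^ 2) * ∑ i, m i * (N i - N' i) ^ 2 ≤ 3 * S := by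
      have hS0 : 0 ≤ S := Finset.sum_nonneg fun i _ => div_nonneg (sq_nonneg _) (hm i).le
      linarith
    rw [hτdef] at h8
    field_simp at h8
    linarith
  have hfinal : ∀ i, m i * ((∫ x in A i, ⟪v i, x⟫) / m i - (∫ x in B i, ⟪v i, x⟫) / m' i) ^ 2
      ≤ 2 * (m i * (N i - N' i) ^ 2) + 8 * R ^ 2 * (m i * (g i - g' i) ^ 2) := fun i => by
    obtain ⟨⟨a1, a2⟩, b1, b2⟩ := hgr i
    have hgi : (g i : ℝ) ≠ 0 := by linarith
    have hgi' : (g' i : ℝ) ≠ 0 := by linarith
    have e1 : (∫ x in A i, ⟪v i, x⟫) / m i = N i * g i := by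
      simp only [N]; field_simp
    have e2 : (∫ x in B i, ⟪v i, x⟫) / m' i = N' i * g' i := by
      simp only [N']; field_simp
    have hNb : |N' i| ≤ 2 * R := by
      have h1 : |∫ x in B i, ⟪v i, x⟫| ≤ R * m' i := by
        rw [← Real.norm_eq_abs]
        exact norm_setIntegral_le_of_norm_le_const (hfin (cell_subset i)).lt_top fun x hx =>
          (abs_real_inner_le_norm _ _).trans
            ((mul_le_of_le_one_left (norm_nonneg _) (hv i)).trans (hKR x hx.1))
      simp only [N']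
      rw [abs_div, abs_of_pos (mul_pos (hm'0 i) (by linarith : 0 < g' i)),
        div_le_iff₀ (mul_pos (hm'0 i) (by linarith : 0 < g' i))]
      nlinarith [mul_le_mul_of_nonneg_left b1 (mul_pos hR (hm'0 i)).le, mul_pos hR (hm'0 i)]
    rw [e1, e2]
    have hg2 : g i ^ 2 ≤ 1 := pow_le_one₀ (by linarith) a2
    have hN2 : N' i ^ 2 ≤ 4 * R ^ 2 := by
      nlinarith [sq_abs (N' i), abs_nonneg (N' i)]
    calc m i * (N i * g i - N' i * g' i) ^ 2
        ≤ m i * (2 * ((N i - N' i) ^ 2 * g i ^ 2) + 2 * (N' i ^ 2 * (g i - g' i) ^ 2)) :=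
          mul_le_mul_of_nonneg_left
            (by nlinarith [sq_nonneg ((N i - N' i) * g i - N' i * (g i - g' i))]) (hm i).le
      _ ≤ m i * (2 * ((N i - N' i) ^ 2 * 1) + 2 * (4 * R ^ 2 * (g i - g' i) ^ 2)) := by
          gcongr
      _ = _ := by ring
  refine (Finset.sum_le_sum fun i _ => hfinal i).trans ?_
  rw [Finset.sum_add_distrib, ← Finset.mul_sum, ← Finset.mul_sum]
  have hS0 : 0 ≤ S := Finset.sum_nonneg fun i _ => div_nonneg (sq_nonneg _) (hm i).le
  nlinarith [mul_le_mul_of_nonneg_left hX (sq_nonneg R), mul_nonneg (sq_nonneg R) hS0]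

/-- The first moments react linearly to a perturbation `1 + s w` of the source density. -/
theorem moment_perturb (hK : IsCompact K) (hconv : Convex ℝ K) (hR : 0 < R)
    (hKR : ∀ x ∈ K, ‖x‖ ≤ R) (hy : Function.Injective y) {μ : ι → ℝ} (hμ : ∀ i, 0 < μ i)
    {w : Euc d → ℝ} (hw : Continuous w) {W s : ℝ} (hW : ∀ x ∈ K, |w x| ≤ W) (hs : |s| * W ≤ 1 / 4)
    {ψ ψ' : ι → ℝ} (hmass : ∀ i, volume.real (cell K y ψ i) = μ i)
    (hmass' : ∀ i, ∫ x in cell K y ψ' i, (1 + s * w x) = μ i) (ξ : ι → Euc d) :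
    |(∑ i, ∫ x in cell K y ψ' i, (1 + s * w x) * ⟪ξ i, x⟫)
        - ∑ i, ∫ x in cell K y ψ i, ⟪ξ i, x⟫|
      ≤ 700 * R * |s| * Real.sqrt (∫ x in K, w x ^ 2) * Real.sqrt (∑ i, μ i * ‖ξ i‖ ^ 2) := by
  set A := cell K y ψ
  set B := cell K y ψ'
  have hio : ∀ {u : Euc d → ℝ}, Continuous u → ∀ {S : Set (Euc d)}, S ⊆ K → IntegrableOn u S :=
    fun hu S hS => (hu.continuousOn.integrableOn_compact hK).mono_set hS
  have hfin : ∀ {S : Set (Euc d)}, S ⊆ K → volume S ≠ ⊤ := fun hS =>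
    ((measure_mono hS).trans_lt hK.measure_lt_top).ne
  set m' : ι → ℝ := fun i => volume.real (B i) with hm'def
  have hμ' : ∀ i, μ i = m' i + s * ∫ x in B i, w x := fun i => by
    rw [← hmass' i, integral_add
      (hio (continuous_const (y := (1 : ℝ))) (cell_subset i))
      ((hio hw (cell_subset i)).const_mul s), setIntegral_const, smul_eq_mul, mul_one,
      integral_const_mul]
  have hsw : ∀ i, |s * ∫ x in B i, w x| ≤ m' i / 4 := fun i => by
    have h := norm_setIntegral_le_of_norm_le_const (f := fun x => s * w x) (C := 1 / 4)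
      (hfin (cell_subset (y := y) (ψ := ψ') i)).lt_top fun x hx => by
        rw [Real.norm_eq_abs, abs_mul]
        exact (mul_le_mul_of_nonneg_left (hW x hx.1) (abs_nonneg s)).trans hs
    rw [Real.norm_eq_abs, integral_const_mul] at h
    linarith
  have hm' : ∀ i, 4 / 5 * μ i ≤ m' i ∧ m' i ≤ 4 / 3 * μ i := fun i => by
    have h := abs_le.1 (hsw i)
    constructor <;> linarith [hμ' i]
  have hm'0 : ∀ i, 0 < m' i := fun i => by linarith [(hm' i).1, hμ i]
  set P : ℝ := ∫ x in K, w x ^ 2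
  have hw2 : Continuous fun x => w x ^ 2 := hw.pow 2
  have hP : ∑ i, ∫ x in B i, w x ^ 2 = P :=
    sum_setIntegral_cell hK.measurableSet hy (hio hw2 subset_rfl)
  have hq0 : ∀ i, 0 ≤ ∫ x in B i, w x ^ 2 := fun i => integral_nonneg fun x => sq_nonneg (w x)
  set v : ι → Euc d := fun i => ‖ξ i‖⁻¹ • ξ i with hvdef
  have hv : ∀ i, ‖v i‖ ≤ 1 := fun i => by
    rw [hvdef, norm_smul, norm_inv, norm_norm]
    exact inv_mul_le_one
  have hξ : ∀ i x, ⟪ξ i, x⟫ = ‖ξ i‖ * ⟪v i, x⟫ := fun i x => by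
    by_cases h : ξ i = 0
    · simp [h]
    · rw [hvdef, real_inner_smul_left, ← mul_assoc, mul_inv_cancel₀ (norm_ne_zero_iff.2 h),
        one_mul]
  set c : ι → ℝ := fun i => (∫ x in A i, ⟪v i, x⟫) / μ i
  set c' : ι → ℝ := fun i => (∫ x in B i, ⟪v i, x⟫) / m' i with hc'def
  set δ : ι → ℝ := fun i => (∫ x in B i, (1 + s * w x) * ⟪v i, x⟫) - ∫ x in A i, ⟪v i, x⟫
  have hkey := centroid_stability hK hconv hR hKR hy ψ ψ' (fun i => by rw [hmass i]; exact hμ i)
    (fun i => by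
      rw [hmass i, abs_le]
      change -(μ i / 2) ≤ m' i - μ i ∧ m' i - μ i ≤ μ i / 2
      constructor <;> linarith [(hm' i).1, (hm' i).2, hμ i]) v hv
  simp only [show ∀ i, volume.real (cell K y ψ i) = μ i from hmass] at hkey
  change ∑ i, μ i * (c i - c' i) ^ 2 ≤ 100000 * R ^ 2 * ∑ i, (m' i - μ i) ^ 2 / μ i at hkey
  have hS : ∀ i, (m' i - μ i) ^ 2 / μ i ≤ 2 * s ^ 2 * ∫ x in B i, w x ^ 2 := fun i => by
    rw [hμ' i, sub_add_cancel_left, neg_sq, ← hμ' i, div_le_iff₀ (hμ i), mul_pow]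
    have h := sq_setIntegral_le (hio hw (cell_subset i)) (hio hw2 (cell_subset i))
      (hfin (cell_subset (y := y) (ψ := ψ') i)) (hm'0 i)
    change _ ≤ m' i * _ at h
    nlinarith [mul_le_mul_of_nonneg_left h (sq_nonneg s),
      mul_le_mul_of_nonneg_right (hm' i).2 (mul_nonneg (sq_nonneg s) (hq0 i)),
      mul_nonneg (hμ i).le (mul_nonneg (sq_nonneg s) (hq0 i))]
  have hδ : ∀ i, δ i ^ 2 / μ i
      ≤ 2 * (μ i * (c i - c' i) ^ 2) + 16 * R ^ 2 * s ^ 2 * ∫ x in B i, w x ^ 2 := fun i => by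
    set r := s * ∫ x in B i, w x * (⟪v i, x⟫ - c' i) with hrdef
    have hcw : Continuous fun x => w x * ⟪v i, x⟫ := by fun_prop
    have e1 : ∫ x in B i, ⟪v i, x⟫ = m' i * c' i := (mul_div_cancel₀ _ (hm'0 i).ne').symm
    have e2 : ∫ x in A i, ⟪v i, x⟫ = μ i * c i := (mul_div_cancel₀ _ (hμ i).ne').symm
    have e3 : ∫ x in B i, (1 + s * w x) * ⟪v i, x⟫
        = m' i * c' i + s * ∫ x in B i, w x * ⟪v i, x⟫ := by
      simp only [add_mul, one_mul, mul_assoc]
      rw [integral_add (hio (by fun_prop) (cell_subset i))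
        ((hio hcw (cell_subset i)).const_mul s), integral_const_mul, e1]
    have hr : r = s * (∫ x in B i, w x * ⟪v i, x⟫) - c' i * (s * ∫ x in B i, w x) := by
      simp only [hrdef, mul_sub]
      rw [integral_sub (hio hcw (cell_subset i)) ((hio hw (cell_subset i)).mul_const _),
        integral_mul_const]
      ring
    have hδi : δ i = μ i * (c' i - c i) + r := by
      simp only [δ]
      rw [e2, e3, hr]
      linear_combination (-(c' i)) * hμ' i
    have hb : ∀ x ∈ B i, |⟪v i, x⟫| ≤ R := fun x hx => (abs_real_inner_le_norm _ _).trans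
      ((mul_le_of_le_one_left (norm_nonneg _) (hv i)).trans (hKR x hx.1))
    have hc'b : |c' i| ≤ R := by
      rw [hc'def, abs_div, abs_of_pos (hm'0 i), div_le_iff₀ (hm'0 i), ← Real.norm_eq_abs]
      exact norm_setIntegral_le_of_norm_le_const
        (hfin (cell_subset (y := y) (ψ := ψ') i)).lt_top hb
    have habs : |r| ≤ |s| * (2 * R * ∫ x in B i, |w x|) := by
      rw [hrdef, abs_mul, ← integral_const_mul]
      refine mul_le_mul_of_nonneg_left ?_ (abs_nonneg s)
      refine abs_integral_le_integral_abs.trans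
        (setIntegral_mono_on (hio (by fun_prop) (cell_subset i))
          ((hio hw.abs (cell_subset i)).const_mul _) (measurableSet_cell hK.measurableSet i)
          fun x hx => ?_)
      rw [abs_mul, mul_comm (2 * R)]
      exact mul_le_mul_of_nonneg_left ((abs_sub _ _).trans (by linarith [hb x hx])) (abs_nonneg _)
    have hr2 : r ^ 2 ≤ 8 * R ^ 2 * s ^ 2 * (μ i * ∫ x in B i, w x ^ 2) := by
      have h := sq_setIntegral_le (hio hw.abs (cell_subset i))
        ((hio hw2 (cell_subset i)).congr_fun (fun x _ => (sq_abs (w x)).symm)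
          (measurableSet_cell hK.measurableSet i))
        (hfin (cell_subset (y := y) (ψ := ψ') i)) (hm'0 i)
      simp only [sq_abs] at h
      change _ ≤ m' i * _ at h
      have h1 : r ^ 2 ≤ (|s| * (2 * R * ∫ x in B i, |w x|)) ^ 2 :=
        sq_le_sq' (by linarith [(abs_le.1 habs).1]) (abs_le.1 habs).2
      simp only [mul_pow, sq_abs] at h1
      nlinarith [mul_le_mul_of_nonneg_left h (mul_nonneg (sq_nonneg s) (sq_nonneg R)),
        mul_le_mul_of_nonneg_left (mul_le_mul_of_nonneg_right (hm' i).2 (hq0 i))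
          (mul_nonneg (sq_nonneg s) (sq_nonneg R)),
        mul_nonneg (mul_nonneg (sq_nonneg s) (sq_nonneg R)) (mul_nonneg (hμ i).le (hq0 i))]
    rw [div_le_iff₀ (hμ i), hδi]
    nlinarith [sq_nonneg (μ i * (c' i - c i) - r)]
  have hsum : ∑ i, δ i ^ 2 / μ i ≤ (700 * R * |s|) ^ 2 * P := by
    refine (Finset.sum_le_sum fun i _ => hδ i).trans ?_
    rw [Finset.sum_add_distrib, ← Finset.mul_sum, ← Finset.mul_sum, hP]
    have h1 : ∑ i, (m' i - μ i) ^ 2 / μ i ≤ 2 * s ^ 2 * P := by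
      refine (Finset.sum_le_sum fun i _ => hS i).trans (le_of_eq ?_)
      rw [← Finset.mul_sum, hP]
    have hP0 : 0 ≤ P := integral_nonneg fun x => sq_nonneg (w x)
    simp only [mul_pow, sq_abs]
    nlinarith [mul_le_mul_of_nonneg_left h1 (sq_nonneg R),
      mul_nonneg (mul_nonneg (sq_nonneg R) (sq_nonneg s)) hP0]
  have hdiff : (∑ i, ∫ x in B i, (1 + s * w x) * ⟪ξ i, x⟫) - ∑ i, ∫ x in A i, ⟪ξ i, x⟫
      = ∑ i, ‖ξ i‖ * δ i := by
    rw [← Finset.sum_sub_distrib]
    refine Finset.sum_congr rfl fun i _ => ?_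
    simp only [δ, hξ i, mul_sub, ← integral_const_mul]
    congr 2 with x
    ring
  rw [hdiff]
  have hcs := Real.sum_mul_le_sqrt_mul_sqrt Finset.univ (fun i => Real.sqrt (μ i) * ‖ξ i‖)
    (fun i => |δ i| / Real.sqrt (μ i))
  simp only [mul_pow, div_pow, Real.sq_sqrt (hμ _).le, sq_abs] at hcs
  have e : ∀ i, Real.sqrt (μ i) * ‖ξ i‖ * (|δ i| / Real.sqrt (μ i)) = |‖ξ i‖ * δ i| := fun i => by
    have := Real.sqrt_pos.2 (hμ i)
    rw [abs_mul, abs_norm]
    field_simp
  simp only [e] at hcs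
  refine (Finset.abs_sum_le_sum_abs _ _).trans (hcs.trans ?_)
  rw [mul_comm (700 * R * |s| * Real.sqrt P)]
  refine mul_le_mul_of_nonneg_left ((Real.sqrt_le_sqrt hsum).trans (le_of_eq ?_))
    (Real.sqrt_nonneg _)
  rw [Real.sqrt_mul (sq_nonneg _), Real.sqrt_sq (by positivity)]

end Vale.Agent.P074
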