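import Vale.Agent.P074.Third.Cells
import Mathlib.Analysis.Convex.Topology
import Mathlib.Topology.Connected.TotallyDisconnected
import Mathlib.MeasureTheory.Measure.OpenPos

/-!
# The dual problem of semidiscrete transport
-/

open MeasureTheory Filter Topology Set
open scoped ENNReal RealInnerProductSpace

namespace Vale.Agent.P074

variable {d : ℕ} {ι : Type*} [Fintype ι] [Nonempty ι]

/-- The dual functional of semidiscrete transport from the density `p` on `K` to the masses `μ`. -/
noncomputable def dualValue (K : Set (Euc d)) (p : Euc d → ℝ) (μ : ι → ℝ) (y : ι → Euc d)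
    (ψ : ι → ℝ) : ℝ :=
  (∫ x in K, pot y ψ x * p x) + ∑ i, μ i * ψ i

/-- `ψ` minimises the dual functional. -/
def IsDualMin (K : Set (Euc d)) (p : Euc d → ℝ) (μ : ι → ℝ) (y : ι → Euc d) (ψ : ι → ℝ) : Prop :=
  ∀ ψ' : ι → ℝ, dualValue K p μ y ψ ≤ dualValue K p μ y ψ'

variable {K : Set (Euc d)} {p : Euc d → ℝ} {μ : ι → ℝ} {y : ι → Euc d} {ψ ψ' : ι → ℝ} {R : ℝ}

lemma integrableOn_pot_mul (hK : IsCompact K) (hp : Continuous p) (y : ι → Euc d) (ψ : ι → ℝ) :
    IntegrableOn (fun x => pot y ψ x * p x) K :=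
  ((continuous_pot y ψ).mul hp).continuousOn.integrableOn_compact hK

lemma pot_add_const (y : ι → Euc d) (ψ : ι → ℝ) (c : ℝ) (x : Euc d) :
    pot y (fun i => ψ i + c) x = pot y ψ x - c := by
  refine le_antisymm (pot_le fun i => ?_) ?_
  · linarith [le_pot y ψ x i]
  · obtain ⟨i, hi⟩ := exists_pot_eq y ψ x
    linarith [le_pot y (fun i => ψ i + c) x i]

lemma dualValue_add_const (hK : IsCompact K) (hp : Continuous p)
    (hpμ : ∫ x in K, p x = ∑ i, μ i) (c : ℝ) :
    dualValue K p μ y (fun i => ψ i + c) = dualValue K p μ y ψ := by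
  simp only [dualValue, pot_add_const, sub_mul, mul_add, Finset.sum_add_distrib, ← Finset.sum_mul]
  rw [integral_sub (integrableOn_pot_mul hK hp y ψ)
    ((hp.continuousOn.integrableOn_compact hK).const_mul c), integral_const_mul, hpμ]
  ring

lemma dualValue_sub_le (hK : IsCompact K) (hp : Continuous p) (hp0 : ∀ x ∈ K, 0 ≤ p x) {c : ℝ}
    (h : ∀ i, |ψ i - ψ' i| ≤ c) :
    |(∫ x in K, pot y ψ x * p x) - ∫ x in K, pot y ψ' x * p x| ≤ c * ∫ x in K, p x := by
  rw [← integral_sub (integrableOn_pot_mul hK hp y ψ) (integrableOn_pot_mul hK hp y ψ'),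
    ← integral_const_mul]
  refine abs_integral_le_integral_abs.trans (setIntegral_mono_on
    (((integrableOn_pot_mul hK hp y ψ).sub (integrableOn_pot_mul hK hp y ψ')).abs)
    ((hp.continuousOn.integrableOn_compact hK).const_mul c) hK.measurableSet fun x hx => ?_)
  rw [← sub_mul, abs_mul, abs_of_nonneg (hp0 x hx)]
  refine mul_le_mul_of_nonneg_right (abs_sub_le_iff.2 ⟨?_, ?_⟩) (hp0 x hx)
  · exact pot_sub_le_of_forall (fun i => by linarith [(abs_le.1 (h i)).1]) x
  · exact pot_sub_le_of_forall (fun i => by linarith [(abs_le.1 (h i)).2]) x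

lemma continuous_dualValue (hK : IsCompact K) (hp : Continuous p) (hp0 : ∀ x ∈ K, 0 ≤ p x) :
    Continuous (dualValue K p μ y) := by
  refine Continuous.add ?_ (by fun_prop)
  have hV : 0 ≤ ∫ x in K, p x := setIntegral_nonneg hK.measurableSet hp0
  refine (LipschitzWith.of_dist_le_mul (K := (∫ x in K, p x).toNNReal) fun a b => ?_).continuous
  rw [Real.coe_toNNReal _ hV, Real.dist_eq, mul_comm]
  refine dualValue_sub_le hK hp hp0 fun i => ?_
  rw [← Real.dist_eq]
  exact dist_le_pi_dist a b i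

/-- A minimiser exists in an explicit box. -/
theorem exists_isDualMin (hK : IsCompact K) (hp : Continuous p) (hp0 : ∀ x ∈ K, 0 ≤ p x)
    (hμ : ∀ i, 0 < μ i) (hpμ : ∫ x in K, p x = ∑ i, μ i) (hR : 0 ≤ R) (hKR : ∀ x ∈ K, ‖x‖ ≤ R)
    (hyR : ∀ i, ‖y i‖ ≤ R) :
    ∃ ψ ∈ Icc (0 : ι → ℝ) (fun i => 2 * R ^ 2 * (∑ j, μ j) / μ i), IsDualMin K p μ y ψ := by
  set V := ∑ j, μ j
  set box := Icc (0 : ι → ℝ) (fun i => 2 * R ^ 2 * V / μ i)
  have hV : 0 ≤ V := Finset.sum_nonneg fun i _ => (hμ i).le
  have hb : ∀ i x, x ∈ K → |⟪x, y i⟫| ≤ R ^ 2 := fun i x hx => by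
    rw [sq]
    exact (abs_real_inner_le_norm _ _).trans (mul_le_mul (hKR x hx) (hyR i) (norm_nonneg _) hR)
  have h0mem : (0 : ι → ℝ) ∈ box := ⟨le_rfl, fun i => by have := hμ i; positivity⟩
  obtain ⟨ψ, hψ, hmin⟩ := isCompact_Icc.exists_isMinOn ⟨0, h0mem⟩
    (continuous_dualValue (μ := μ) (y := y) hK hp hp0).continuousOn
  refine ⟨ψ, hψ, fun φ => ?_⟩
  obtain ⟨k, hk⟩ := Finite.exists_min φ
  set φ₀ : ι → ℝ := fun i => φ i + -φ k with hφ₀
  rw [← dualValue_add_const hK hp hpμ (-φ k) (ψ := φ)]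
  by_cases hbox : φ₀ ∈ box
  · exact hmin hbox
  · refine (hmin h0mem).trans ?_
    have hnn : ∀ i, 0 ≤ φ₀ i := fun i => by simp only [hφ₀]; linarith [hk i]
    obtain ⟨i, hi⟩ : ∃ i, 2 * R ^ 2 * V / μ i < φ₀ i := by
      by_contra hcon
      push Not at hcon
      exact hbox ⟨hnn, hcon⟩
    rw [div_lt_iff₀ (hμ i)] at hi
    have h1 : ∫ x in K, pot y (0 : ι → ℝ) x * p x ≤ R ^ 2 * V := by
      rw [← hpμ, ← integral_const_mul]
      refine setIntegral_mono_on (integrableOn_pot_mul hK hp y _)
        ((hp.continuousOn.integrableOn_compact hK).const_mul _) hK.measurableSet fun x hx => ?_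
      refine mul_le_mul_of_nonneg_right (pot_le fun j => ?_) (hp0 x hx)
      simpa using le_of_abs_le (hb j x hx)
    have h2 : -(R ^ 2 * V) ≤ ∫ x in K, pot y φ₀ x * p x := by
      rw [← hpμ, ← neg_mul, ← integral_const_mul]
      refine setIntegral_mono_on ((hp.continuousOn.integrableOn_compact hK).const_mul _)
        (integrableOn_pot_mul hK hp y _) hK.measurableSet fun x hx => ?_
      refine mul_le_mul_of_nonneg_right (le_trans ?_ (le_pot y φ₀ x k)) (hp0 x hx)
      simp only [hφ₀, add_neg_cancel, sub_zero]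
      linarith [neg_abs_le ⟪x, y k⟫, hb k x hx]
    have h3 : μ i * φ₀ i ≤ ∑ j, μ j * φ₀ j :=
      Finset.single_le_sum (f := fun j => μ j * φ₀ j)
        (fun j _ => mul_nonneg (hμ j).le (hnn j)) (Finset.mem_univ i)
    simp only [dualValue, Pi.zero_apply, mul_zero, Finset.sum_const_zero, add_zero]
    change _ ≤ (∫ x in K, pot y φ₀ x * p x) + ∑ j, μ j * φ₀ j
    linarith

/-- The cells of a minimiser have the prescribed masses. -/
theorem setIntegral_cell_eq_of_isDualMin (hK : IsCompact K) (hp : Continuous p)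
    (hp0 : ∀ x ∈ K, 0 ≤ p x) (hpμ : ∫ x in K, p x = ∑ i, μ i) (hy : Function.Injective y)
    (hmin : IsDualMin K p μ y ψ) : ∀ i, ∫ x in cell K y ψ i, p x = μ i := by
  classical
  have hip := hp.continuousOn.integrableOn_compact (μ := volume) hK
  have hle : ∀ i, ∫ x in cell K y ψ i, p x ≤ μ i := by
    intro i
    set t : ℕ → ℝ := fun n => 1 / ((n : ℝ) + 1)
    set A : ℕ → Set (Euc d) := fun n =>
      K ∩ ⋂ j ∈ {j | j ≠ i}, {x | ⟪x, y j⟫ - ψ j ≤ ⟪x, y i⟫ - ψ i - t n}
    have hAm : ∀ n, MeasurableSet (A n) := fun n => hK.measurableSet.inter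
      (MeasurableSet.biInter (Set.to_countable _) fun j _ =>
        (isClosed_le (by fun_prop) (by fun_prop)).measurableSet)
    have hmono : Monotone A := fun a b hab x hx => by
      refine ⟨hx.1, mem_iInter₂.2 fun j hj => ?_⟩
      have h1 : ⟪x, y j⟫ - ψ j ≤ ⟪x, y i⟫ - ψ i - t a := mem_iInter₂.1 hx.2 j hj
      have h2 : t b ≤ t a := Nat.one_div_le_one_div hab
      show ⟪x, y j⟫ - ψ j ≤ ⟪x, y i⟫ - ψ i - t b
      linarith
    have hAK : ⋃ n, A n ⊆ K := iUnion_subset fun n => inter_subset_left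
    have hbound : ∀ n, ∫ x in A n, p x ≤ μ i := by
      intro n
      have ht : 0 < t n := Nat.one_div_pos_of_nat
      set ψ' : ι → ℝ := Function.update ψ i (ψ i + t n)
      have h1 : ∀ j, ψ j ≤ ψ' j := fun j => by
        rcases eq_or_ne j i with rfl | h
        · simp [ψ', ht.le]
        · simp [ψ', h]
      have h2 : (∫ x in K, pot y ψ' x * p x) + t n * ∫ x in A n, p x
          ≤ ∫ x in K, pot y ψ x * p x := by
        have e : t n * ∫ x in A n, p x = ∫ x in K, (A n).indicator (fun x => t n * p x) x := by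
          rw [setIntegral_indicator (hAm n), inter_eq_self_of_subset_right inter_subset_left,
            integral_const_mul]
        rw [e, ← integral_add (integrableOn_pot_mul hK hp y ψ')
          ((hip.const_mul (t n)).indicator (hAm n))]
        refine setIntegral_mono_on ((integrableOn_pot_mul hK hp y ψ').add
          ((hip.const_mul (t n)).indicator (hAm n))) (integrableOn_pot_mul hK hp y ψ)
          hK.measurableSet fun x hx => ?_
        by_cases hxA : x ∈ A n
        · rw [indicator_of_mem hxA, ← add_mul]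
          refine mul_le_mul_of_nonneg_right ?_ (hp0 x hx)
          obtain ⟨j, hj⟩ := exists_pot_eq y ψ' x
          rw [hj]
          rcases eq_or_ne j i with rfl | h
          · simp only [ψ', Function.update_self]; linarith [le_pot y ψ x j]
          · have : ⟪x, y j⟫ - ψ j ≤ ⟪x, y i⟫ - ψ i - t n := mem_iInter₂.1 hxA.2 j h
            simp only [ψ', Function.update_of_ne h]
            linarith [le_pot y ψ x i]
        · rw [indicator_of_notMem hxA, add_zero]
          exact mul_le_mul_of_nonneg_right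
            (pot_le fun j => le_trans (by linarith [h1 j]) (le_pot y ψ x j)) (hp0 x hx)
      have h3 : ∑ j, μ j * ψ' j = (∑ j, μ j * ψ j) + t n * μ i := by
        have : ∀ j, μ j * ψ' j = μ j * ψ j + if j = i then t n * μ j else 0 := fun j => by
          rcases eq_or_ne j i with rfl | h
          · simp [ψ']; ring
          · simp [ψ', h]
        simp only [this, Finset.sum_add_distrib, Finset.sum_ite_eq', Finset.mem_univ, if_true]
      have h4 := hmin ψ'
      simp only [dualValue, h3] at h4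
      exact le_of_mul_le_mul_left (by linarith) ht
    have hlim := le_of_tendsto' (tendsto_setIntegral_of_monotone hAm hmono (hip.mono_set hAK))
      hbound
    refine le_trans (le_of_eq (setIntegral_congr_set ?_)) hlim
    refine ae_eq_set.2 ⟨measure_mono_null ?_ ((measure_iUnion_null_iff).2
      fun j : {j // j ≠ i} => volume_hyperplane (sub_ne_zero.2 (hy.ne j.2.symm)) (ψ i - ψ j.1)),
      measure_mono_null ?_ measure_empty⟩
    · rintro x ⟨hx, hxn⟩
      simp only [mem_iUnion, mem_ofPred_eq]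
      by_contra hcon
      push Not at hcon
      have hs : ∀ j, j ≠ i → ∀ᶠ n in atTop, ⟪x, y j⟫ - ψ j ≤ ⟪x, y i⟫ - ψ i - t n := fun j hj => by
        have h1 : ⟪x, y j⟫ - ψ j < ⟪x, y i⟫ - ψ i := lt_of_le_of_ne (hx.2 j) fun h => by
          refine hcon ⟨j, hj⟩ ?_
          rw [inner_sub_right]
          linarith
        filter_upwards [tendsto_one_div_add_atTop_nhds_zero_nat.eventually
          (eventually_le_nhds (sub_pos.2 h1))] with n hn
        simp only [t]
        linarith
      obtain ⟨n, hn⟩ := (eventually_all.2 fun j : {j // j ≠ i} => hs j.1 j.2).exists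
      exact hxn (mem_iUnion.2 ⟨n, hx.1, mem_iInter₂.2 fun j hj => hn ⟨j, hj⟩⟩)
    · rintro x ⟨hx, hxn⟩
      obtain ⟨n, hn⟩ := mem_iUnion.1 hx
      refine (hxn ⟨hn.1, fun j => ?_⟩).elim
      rcases eq_or_ne j i with rfl | h
      · exact le_rfl
      · have h1 : ⟪x, y j⟫ - ψ j ≤ ⟪x, y i⟫ - ψ i - t n := mem_iInter₂.1 hn.2 j h
        linarith [(Nat.one_div_pos_of_nat : (0 : ℝ) < t n)]
  intro i
  have hsum : ∑ j, ∫ x in cell K y ψ j, p x = ∑ j, μ j :=
    (sum_setIntegral_cell hK.measurableSet hy hip).trans hpμ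
  exact (Finset.sum_eq_sum_iff_of_le fun j _ => hle j).1 hsum i (Finset.mem_univ i)

/-- The first moment of the cells bounds the dual value at any sites. -/
theorem moment_le_dualValue (hK : IsCompact K) (hp : Continuous p) (hp0 : ∀ x ∈ K, 0 ≤ p x)
    (hy : Function.Injective y) (hmass : ∀ i, ∫ x in cell K y ψ i, p x = μ i)
    (y' : ι → Euc d) (ψ' : ι → ℝ) :
    ∑ i, ∫ x in cell K y ψ i, p x * ⟪y' i, x⟫ ≤ dualValue K p μ y' ψ' := by
  rw [dualValue, ← sum_setIntegral_cell hK.measurableSet hy (ψ := ψ)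
    (integrableOn_pot_mul hK hp y' ψ'), ← Finset.sum_add_distrib]
  refine Finset.sum_le_sum fun i _ => ?_
  have hio : ∀ {u : Euc d → ℝ}, Continuous u → IntegrableOn u (cell K y ψ i) := fun hu =>
    (hu.continuousOn.integrableOn_compact hK).mono_set (cell_subset i)
  have h : ∫ x in cell K y ψ i, (p x * ⟪y' i, x⟫ - ψ' i * p x)
      ≤ ∫ x in cell K y ψ i, pot y' ψ' x * p x :=
    setIntegral_mono_on ((hio (by fun_prop)).sub (hio (by fun_prop)))
      (hio ((continuous_pot y' ψ').mul hp)) (measurableSet_cell hK.measurableSet i) fun x hx => by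
      have := mul_le_mul_of_nonneg_right (le_pot y' ψ' x i) (hp0 x hx.1)
      rw [real_inner_comm (y' i) x] at this
      linarith
  rw [integral_sub (hio (by fun_prop)) (hio (by fun_prop)), integral_const_mul, hmass i] at h
  linarith

theorem moment_eq_dualValue (hK : IsCompact K) (hp : Continuous p)
    (hy : Function.Injective y) (hmass : ∀ i, ∫ x in cell K y ψ i, p x = μ i) :
    ∑ i, ∫ x in cell K y ψ i, p x * ⟪y i, x⟫ = dualValue K p μ y ψ := by
  rw [dualValue, ← sum_setIntegral_cell hK.measurableSet hy (ψ := ψ)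
    (integrableOn_pot_mul hK hp y ψ), ← Finset.sum_add_distrib]
  refine Finset.sum_congr rfl fun i _ => ?_
  have hio : ∀ {u : Euc d → ℝ}, Continuous u → IntegrableOn u (cell K y ψ i) := fun hu =>
    (hu.continuousOn.integrableOn_compact hK).mono_set (cell_subset i)
  have h : ∫ x in cell K y ψ i, pot y ψ x * p x
      = ∫ x in cell K y ψ i, (p x * ⟪y i, x⟫ - ψ i * p x) :=
    setIntegral_congr_fun (measurableSet_cell hK.measurableSet i) fun x hx => by
      rw [pot_eq_of_mem hx, real_inner_comm (y i) x]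
      ring
  rw [h, integral_sub (hio (by fun_prop)) (hio (by fun_prop)), integral_const_mul, hmass i]
  ring

/-- Two minimisers give potentials differing by a constant. -/
theorem isDualMin_unique (hK : IsCompact K) (hconv : Convex ℝ K) (hKint : (interior K).Nonempty)
    (h : IsDualMin K (fun _ => (1 : ℝ)) μ y ψ) (h' : IsDualMin K (fun _ => (1 : ℝ)) μ y ψ') :
    ∃ c, ∀ x ∈ K, pot y ψ x = pot y ψ' x + c := by
  set χ : ι → ℝ := fun i => (ψ i + ψ' i) / 2
  set Δ : Euc d → ℝ := fun x => (pot y ψ x + pot y ψ' x) / 2 - pot y χ x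
  have hΔ : ∀ x, 0 ≤ Δ x := fun x => by
    obtain ⟨i, hi⟩ := exists_pot_eq y χ x
    simp only [Δ, hi, χ]
    linarith [le_pot y ψ x i, le_pot y ψ' x i]
  have hΔc : Continuous Δ :=
    (((continuous_pot y ψ).add (continuous_pot y ψ')).div_const 2).sub (continuous_pot y χ)
  have hi : ∀ φ : ι → ℝ, IntegrableOn (pot y φ) K := fun φ =>
    (continuous_pot y φ).continuousOn.integrableOn_compact hK
  have hz : ∫ x in K, Δ x = 0 := by
    refine le_antisymm ?_ (integral_nonneg hΔ)
    have e : ∫ x in K, Δ x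
        = ((∫ x in K, pot y ψ x) + ∫ x in K, pot y ψ' x) / 2 - ∫ x in K, pot y χ x := by
      have i1 : IntegrableOn (fun x => (pot y ψ x + pot y ψ' x) / 2) K :=
        ((hi ψ).add (hi ψ')).div_const 2
      simp only [Δ]
      rw [integral_sub i1 (hi χ), integral_div, integral_add (hi ψ) (hi ψ')]
    have s : ∑ i, μ i * χ i = ((∑ i, μ i * ψ i) + ∑ i, μ i * ψ' i) / 2 := by
      rw [← Finset.sum_add_distrib, Finset.sum_div]
      refine Finset.sum_congr rfl fun i _ => ?_
      simp only [χ]; ring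
    have h1 := h χ
    have h2 := h' χ
    simp only [dualValue, mul_one, s] at h1 h2
    linarith
  have hae := (setIntegral_eq_zero_iff_of_nonneg_ae (ae_of_all _ hΔ)
    (hΔc.continuousOn.integrableOn_compact hK)).1 hz
  have hzero : EqOn Δ 0 K := by
    have h1 : EqOn Δ 0 (interior K) := Measure.eqOn_open_of_ae_eq
      (ae_restrict_of_ae_restrict_of_subset interior_subset hae) isOpen_interior hΔc.continuousOn
      continuousOn_const
    have h2 : K ⊆ closure (interior K) := by
      rw [hconv.closure_interior_eq_closure_of_nonempty_interior hKint]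
      exact subset_closure
    exact (h1.closure hΔc continuous_const).mono h2
  set u : Euc d → ℝ := fun x => pot y ψ x - pot y ψ' x
  have hmaps : MapsTo u K (range fun i => ψ' i - ψ i) := fun x hx => by
    obtain ⟨i, hi⟩ := exists_pot_eq y χ x
    refine ⟨i, ?_⟩
    have h0 : Δ x = 0 := hzero hx
    simp only [Δ, hi, χ] at h0
    simp only [u]
    linarith [le_pot y ψ x i, le_pot y ψ' x i]
  obtain ⟨x₀, hx₀⟩ := hKint
  have hu : ContinuousOn u K := ((continuous_pot y ψ).sub (continuous_pot y ψ')).continuousOn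
  refine ⟨u x₀, fun x hx => ?_⟩
  have := hconv.isPreconnected.constant_of_mapsTo (isDiscrete_iff_discreteTopology.2 inferInstance)
    hu hmaps hx (interior_subset hx₀)
  simp only [u] at this ⊢
  linarith

end Vale.Agent.P074
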