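import Vale.Agent.P074.Third.Key
import Vale.Agent.P074.Third.Semidiscrete
import Mathlib.Data.Nat.Prime.Infinite

/-!
# The Kantorovich potentials are Lipschitz stable in `W₂`

Comparing the dual values along the straight path of sites, for the densities `1` and `1 + s w`,
gives `‖u - mean‖₂ ≤ C W₂` for the difference `u` of the two potentials.
-/

open MeasureTheory Filter Topology Set
open scoped ENNReal RealInnerProductSpace

namespace Vale.Agent.P074

variable {d : ℕ} {ι : Type*} [Fintype ι] [Nonempty ι]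
  {K : Set (Euc d)} {μ : ι → ℝ} {R : ℝ} {y₀ y₁ : ι → Euc d}

omit [Fintype ι] [Nonempty ι] in
lemma finite_collisions [Finite ι] (h₀ : Function.Injective y₀) :
    {t : ℝ | ∃ i j, i ≠ j ∧ y₀ i + t • (y₁ i - y₀ i) = y₀ j + t • (y₁ j - y₀ j)}.Finite := by
  have h : {t : ℝ | ∃ i j, i ≠ j ∧ y₀ i + t • (y₁ i - y₀ i) = y₀ j + t • (y₁ j - y₀ j)}
      ⊆ ⋃ p : ι × ι, {t : ℝ | p.1 ≠ p.2 ∧
          y₀ p.1 + t • (y₁ p.1 - y₀ p.1) = y₀ p.2 + t • (y₁ p.2 - y₀ p.2)} :=
    fun t ⟨i, j, hij, he⟩ => mem_iUnion.2 ⟨(i, j), hij, he⟩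
  refine (finite_iUnion fun p => Set.Subsingleton.finite ?_).subset h
  rintro t ⟨hne, ht⟩ t' ⟨-, ht'⟩
  by_contra htt
  set v := (y₁ p.1 - y₀ p.1) - (y₁ p.2 - y₀ p.2)
  have e : ∀ r : ℝ, y₀ p.1 + r • (y₁ p.1 - y₀ p.1) = y₀ p.2 + r • (y₁ p.2 - y₀ p.2) →
      y₀ p.1 - y₀ p.2 = -(r • v) := fun r hr => by
    simp only [v, smul_sub r (y₁ p.1 - y₀ p.1)]
    rw [neg_sub, sub_eq_sub_iff_add_eq_add]
    rw [add_comm (r • (y₁ p.2 - y₀ p.2))]
    exact hr
  have hv : v = 0 := by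
    have h1 : (t - t') • v = 0 := by
      rw [sub_smul, sub_eq_zero, ← neg_inj, ← e t ht, ← e t' ht']
    exact (smul_eq_zero.1 h1).resolve_left (sub_ne_zero.2 htt)
  have := e t ht
  rw [hv, smul_zero, neg_zero, sub_eq_zero] at this
  exact hne (h₀ this)

lemma exists_prime_grid {B : Set ℝ} (hB : B.Finite) (n₀ : ℕ) :
    ∃ N : ℕ, n₀ < N ∧ ∀ k : ℕ, 0 < k → k < N → (k : ℝ) / N ∉ B := by
  have hbad : {N : ℕ | N.Prime ∧ ∃ k : ℕ, 0 < k ∧ k < N ∧ (k : ℝ) / N ∈ B}.Finite := by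
    have h : {N : ℕ | N.Prime ∧ ∃ k : ℕ, 0 < k ∧ k < N ∧ (k : ℝ) / N ∈ B} ⊆
        ⋃ b ∈ B, {N : ℕ | N.Prime ∧ ∃ k : ℕ, 0 < k ∧ k < N ∧ (k : ℝ) / N = b} :=
      fun N ⟨hN, k, h1, h2, h3⟩ => mem_iUnion₂.2 ⟨_, h3, hN, k, h1, h2, rfl⟩
    refine (hB.biUnion fun b _ => Set.Subsingleton.finite ?_).subset h
    rintro N ⟨hN, k, hk0, hkN, hk⟩ N' ⟨hN', k', -, -, hk'⟩
    have hmul : k * N' = k' * N := by
      have h := hk.trans hk'.symm
      rw [div_eq_div_iff (by exact_mod_cast hN.ne_zero) (by exact_mod_cast hN'.ne_zero)] at h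
      exact_mod_cast h
    rcases hN.dvd_mul.1 (hmul ▸ dvd_mul_left N k') with h | h
    · exact absurd (Nat.le_of_dvd hk0 h) (not_le.2 hkN)
    · exact (Nat.prime_dvd_prime_iff_eq hN hN').1 h
  obtain ⟨N, hN, hlt⟩ := (Nat.infinite_setOf_prime.sdiff hbad).exists_gt n₀
  exact ⟨N, hlt, fun k h1 h2 h3 => hN.2 ⟨hN.1, k, h1, h2, h3⟩⟩

/-- The first-order test of the perturbed dual problems. -/
theorem dual_test_le (hK : IsCompact K) (hconv : Convex ℝ K) (hR : 0 < R)
    (hKR : ∀ x ∈ K, ‖x‖ ≤ R) (h₀ : Function.Injective y₀) (h₁ : Function.Injective y₁)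
    (h₀R : ∀ i, ‖y₀ i‖ ≤ R) (h₁R : ∀ i, ‖y₁ i‖ ≤ R) (hμ : ∀ i, 0 < μ i)
    (hμV : ∑ i, μ i = volume.real K) {w : Euc d → ℝ} (hw : Continuous w)
    (hw0 : ∫ x in K, w x = 0) {W s : ℝ} (hW : ∀ x ∈ K, |w x| ≤ W) (hs0 : 0 < s)
    (hs : s * W ≤ 1 / 4) {ψ₀ ψs : ι → ℝ} (hψ₀ : IsDualMin K (fun _ => (1 : ℝ)) μ y₀ ψ₀)
    (hψs : IsDualMin K (fun x => 1 + s * w x) μ y₁ ψs) :
    (∫ x in K, pot y₁ ψs x * w x) - (∫ x in K, pot y₀ ψ₀ x * w x)
      ≤ 700 * R * Real.sqrt (∫ x in K, w x ^ 2) *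
        Real.sqrt (∑ i, μ i * ‖y₁ i - y₀ i‖ ^ 2) := by
  set ξ : ι → Euc d := fun i => y₁ i - y₀ i
  set yt : ℝ → ι → Euc d := fun t i => y₀ i + t • ξ i with hyt
  set ps : Euc d → ℝ := fun x => 1 + s * w x with hps
  set one : Euc d → ℝ := fun _ => 1
  have hpsc : Continuous ps := by fun_prop
  have honec : Continuous one := continuous_const
  have hps0 : ∀ x ∈ K, 0 ≤ ps x := fun x hx => by
    have := abs_le.1 (hW x hx)
    simp only [hps]
    nlinarith
  have hone0 : ∀ x ∈ K, 0 ≤ one x := fun _ _ => zero_le_one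
  have hio : ∀ {u : Euc d → ℝ}, Continuous u → IntegrableOn u K :=
    fun hu => hu.continuousOn.integrableOn_compact hK
  have honeμ : ∫ x in K, one x = ∑ i, μ i := by
    simp [one, setIntegral_const, hμV]
  have hpsμ : ∫ x in K, ps x = ∑ i, μ i := by
    simp only [hps]
    rw [integral_add (hio continuous_const) ((hio hw).const_mul s), integral_const_mul, hw0,
      setIntegral_const, hμV]
    simp
  set bad := {t : ℝ | ∃ i j, i ≠ j ∧ y₀ i + t • (y₁ i - y₀ i) = y₀ j + t • (y₁ j - y₀ j)}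
  have hinj : ∀ t, t ∉ bad → Function.Injective (yt t) := fun t ht i j h => by
    by_contra hij
    exact ht ⟨i, j, hij, h⟩
  have hnorm : ∀ t ∈ Icc (0 : ℝ) 1, ∀ i, ‖yt t i‖ ≤ R := fun t ht i => by
    have hc := (convex_closedBall (0 : Euc d) R).add_smul_sub_mem
      (mem_closedBall_zero_iff.2 (h₀R i)) (mem_closedBall_zero_iff.2 (h₁R i)) ht
    exact mem_closedBall_zero_iff.1 hc
  set X := 700 * R * Real.sqrt (∫ x in K, w x ^ 2) * Real.sqrt (∑ i, μ i * ‖ξ i‖ ^ 2)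
  have hX : 0 ≤ X := by positivity
  set Mb : ℝ := ∑ i, 5 / 4 * ‖ξ i‖ * R * volume.real K
  refine le_of_forall_pos_le_add fun ε hε => ?_
  obtain ⟨n₀, hn₀⟩ := exists_nat_gt (2 * Mb / (s * ε))
  obtain ⟨N, hN, hgrid⟩ := exists_prime_grid (finite_collisions (y₁ := y₁) h₀) n₀
  have hN0 : 0 < N := lt_of_le_of_lt (Nat.zero_le _) hN
  have hNr : (0 : ℝ) < N := by exact_mod_cast hN0
  set τ : ℕ → ℝ := fun k => (k : ℝ) / N with hτ
  have hgood : ∀ k, k ≤ N → τ k ∈ Icc (0 : ℝ) 1 ∧ Function.Injective (yt (τ k)) := fun k hk => by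
    refine ⟨⟨by positivity, (div_le_one hNr).2 (by exact_mod_cast hk)⟩, ?_⟩
    rcases Nat.eq_zero_or_pos k with rfl | hk0
    · simpa [hτ, hyt] using h₀
    rcases hk.eq_or_lt with rfl | hkN
    · have : τ k = 1 := div_self hNr.ne'
      rw [this]
      simpa [hyt, ξ] using h₁
    exact hinj _ (hgrid k hk0 hkN)
  have hsol : ∀ k : ℕ, ∃ a b : ι → ℝ, k ≤ N →
      IsDualMin K ps μ (yt (τ k)) a ∧ IsDualMin K one μ (yt (τ k)) b := fun k => by
    by_cases hk : k ≤ N
    · obtain ⟨a, -, ha⟩ := exists_isDualMin hK hpsc hps0 hμ hpsμ hR.le hKR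
        (hnorm _ (hgood k hk).1)
      obtain ⟨b, -, hb⟩ := exists_isDualMin hK honec hone0 hμ honeμ hR.le hKR
        (hnorm _ (hgood k hk).1)
      exact ⟨a, b, fun _ => ⟨ha, hb⟩⟩
    · exact ⟨0, 0, fun h => absurd h hk⟩
  choose a b hab using hsol
  set G : (Euc d → ℝ) → (ℕ → ι → ℝ) → ℕ → ℝ := fun p c k =>
    ∑ i, ∫ x in cell K (yt (τ k)) (c k) i, p x * ⟪ξ i, x⟫
  set F : (Euc d → ℝ) → (ℕ → ι → ℝ) → ℕ → ℝ := fun p c k => dualValue K p μ (yt (τ k)) (c k)
  have hFG : ∀ p, Continuous p → (∀ x ∈ K, 0 ≤ p x) → (∫ x in K, p x = ∑ i, μ i) →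
      ∀ c : ℕ → ι → ℝ, (∀ k, k ≤ N → IsDualMin K p μ (yt (τ k)) (c k)) → ∀ k, k ≤ N → ∀ l,
      F p c k + (τ l - τ k) * G p c k ≤ F p c l := by
    intro p hpc hp0 hpμ c hc k hk l
    have hm := setIntegral_cell_eq_of_isDualMin hK hpc hp0 hpμ (hgood k hk).2 (hc k hk)
    have h1 := moment_le_dualValue hK hpc hp0 (hgood k hk).2 hm (yt (τ l)) (c l)
    have h2 := moment_eq_dualValue hK hpc (hgood k hk).2 hm
    refine le_trans (le_of_eq ?_) h1
    simp only [F, G, ← h2, Finset.mul_sum, ← Finset.sum_add_distrib]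
    refine Finset.sum_congr rfl fun i _ => ?_
    have hic : ∀ v : Euc d, IntegrableOn (fun x => p x * ⟪v, x⟫) (cell K (yt (τ k)) (c k) i) :=
      fun v => (hio (by fun_prop)).mono_set (cell_subset i)
    rw [← integral_const_mul, ← integral_add (hic _) ((hic _).const_mul _)]
    congr 1
    ext x
    simp only [hyt, inner_add_left, real_inner_smul_left]
    ring
  have hup := hFG ps hpsc hps0 hpsμ a fun k hk => (hab k hk).1
  have hlo := hFG one honec hone0 honeμ b fun k hk => (hab k hk).2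
  have hBk : ∀ k, k ≤ N → G ps a k - G one b k ≤ s * X := fun k hk => by
    have hm := setIntegral_cell_eq_of_isDualMin hK hpsc hps0 hpsμ (hgood k hk).2 (hab k hk).1
    have hm0 := setIntegral_cell_eq_of_isDualMin hK honec hone0 honeμ (hgood k hk).2 (hab k hk).2
    have hmass0 : ∀ i, volume.real (cell K (yt (τ k)) (b k) i) = μ i := fun i => by
      simpa [one, setIntegral_const] using hm0 i
    have h := moment_perturb hK hconv hR hKR (hgood k hk).2 hμ hw hW
      (by rwa [abs_of_pos hs0]) hmass0 hm ξ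
    refine le_trans (le_trans (le_of_eq ?_) (le_abs_self _)) (h.trans (le_of_eq ?_))
    · simp only [G, one, one_mul, hps]
    · simp only [X, abs_of_pos hs0]; ring
  have hGb : ∀ k, |G ps a k| ≤ Mb := fun k => by
    refine (Finset.abs_sum_le_sum_abs _ _).trans (Finset.sum_le_sum fun i _ => ?_)
    rw [← Real.norm_eq_abs]
    refine le_trans (norm_setIntegral_le_of_norm_le_const (C := 5 / 4 * ‖ξ i‖ * R)
      ((measure_mono (cell_subset i)).trans_lt hK.measure_lt_top) fun x hx => ?_)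
      (mul_le_mul_of_nonneg_left (measureReal_mono (cell_subset i) hK.measure_lt_top.ne)
        (by positivity))
    rw [Real.norm_eq_abs, abs_mul, mul_assoc]
    have h1 : |ps x| ≤ 5 / 4 := by
      have := abs_le.1 (hW x hx.1)
      simp only [hps]
      rw [abs_le]
      constructor <;> nlinarith
    exact mul_le_mul h1 ((abs_real_inner_le_norm _ _).trans
      (mul_le_mul_of_nonneg_left (hKR x hx.1) (norm_nonneg _))) (abs_nonneg _) (by norm_num)
  have hstep : ∀ k ∈ Finset.range N, (F ps a (k + 1) - F one b (k + 1)) - (F ps a k - F one b k)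
      ≤ ((G ps a (k + 1) - G ps a k) + s * X) / N := fun k hk => by
    rw [Finset.mem_range] at hk
    have e : τ (k + 1) - τ k = 1 / N := by
      simp only [hτ, Nat.cast_add, Nat.cast_one]; ring
    have h1 := hup (k + 1) hk k
    have h2 := hlo k hk.le (k + 1)
    rw [show τ k - τ (k + 1) = -(1 / N : ℝ) by linarith] at h1
    rw [e] at h2
    have h3 : (1 / N : ℝ) * (G ps a k - G one b k) ≤ 1 / N * (s * X) :=
      mul_le_mul_of_nonneg_left (hBk k hk.le) (by positivity)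
    rw [div_eq_inv_mul, ← one_div]
    linarith
  have htel := Finset.sum_le_sum hstep
  rw [Finset.sum_range_sub (fun k => F ps a k - F one b k), ← Finset.sum_div,
    Finset.sum_add_distrib, Finset.sum_range_sub (fun k => G ps a k), Finset.sum_const,
    Finset.card_range, nsmul_eq_mul] at htel
  have hsmall : (G ps a N - G ps a 0 + (N : ℝ) * (s * X)) / N ≤ s * X + s * ε := by
    rw [div_le_iff₀ hNr]
    have h1 : 2 * Mb < (N : ℝ) * (s * ε) := by
      rw [← div_lt_iff₀ (mul_pos hs0 hε)]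
      exact hn₀.trans (by exact_mod_cast hN)
    linarith [abs_le.1 (hGb N), abs_le.1 (hGb 0)]
  have e0 : yt (τ 0) = y₀ := by funext i; simp [hτ, hyt]
  have e1 : yt (τ N) = y₁ := by
    funext i
    simp [hτ, hyt, ξ, div_self hNr.ne']
  have hval : ∀ (y : ι → Euc d) (ψ : ι → ℝ), dualValue K ps μ y ψ
      = dualValue K one μ y ψ + s * ∫ x in K, pot y ψ x * w x := fun y ψ => by
    simp only [dualValue, hps, one, mul_add, mul_one, ← mul_assoc, mul_comm _ s]
    simp only [mul_assoc]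
    have i2 : IntegrableOn (fun x => pot y ψ x * w x) K := hio ((continuous_pot y ψ).mul hw)
    rw [integral_add (hio (continuous_pot y ψ)) (i2.const_mul s), integral_const_mul]
    ring
  have hs' : dualValue K ps μ y₁ ψs ≤ F ps a N := by
    simp only [F, e1]; exact hψs _
  have hz1 : F one b N ≤ dualValue K one μ y₁ ψs := by
    have h := (hab N le_rfl).2 ψs
    simp only [F]
    rwa [e1] at h ⊢
  have hz0 : dualValue K one μ y₀ ψ₀ ≤ F one b 0 := by
    simp only [F, e0]; exact hψ₀ _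
  have hs0' : F ps a 0 ≤ dualValue K ps μ y₀ ψ₀ := by
    have h := (hab 0 (Nat.zero_le _)).1 ψ₀
    simp only [F]
    rwa [e0] at h ⊢
  rw [hval] at hs' hs0'
  refine le_of_mul_le_mul_left ?_ hs0
  linarith

/-- The potentials are Lipschitz stable in `W₂`, uniformly in the discrete targets. -/
theorem potential_stability (hK : IsCompact K) (hconv : Convex ℝ K)
    (hKint : (interior K).Nonempty) (hR : 0 < R) (hKR : ∀ x ∈ K, ‖x‖ ≤ R)
    (h₀ : Function.Injective y₀) (h₁ : Function.Injective y₁) (h₀R : ∀ i, ‖y₀ i‖ ≤ R)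
    (h₁R : ∀ i, ‖y₁ i‖ ≤ R) (hμ : ∀ i, 0 < μ i) (hμV : ∑ i, μ i = volume.real K) :
    ∃ ψ₀ ψ₁ : ι → ℝ, (∀ i, volume.real (cell K y₀ ψ₀ i) = μ i) ∧
      (∀ i, volume.real (cell K y₁ ψ₁ i) = μ i) ∧
      ∃ c, ∫ x in K, (pot y₁ ψ₁ x - pot y₀ ψ₀ x - c) ^ 2
        ≤ (700 * R) ^ 2 * ∑ i, μ i * ‖y₁ i - y₀ i‖ ^ 2 := by
  set one : Euc d → ℝ := fun _ => 1
  have honec : Continuous one := continuous_const
  have hone0 : ∀ x ∈ K, 0 ≤ one x := fun _ _ => zero_le_one
  have honeμ : ∫ x in K, one x = ∑ i, μ i := by simp [one, setIntegral_const, hμV]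
  have hio : ∀ {u : Euc d → ℝ}, Continuous u → IntegrableOn u K :=
    fun hu => hu.continuousOn.integrableOn_compact hK
  obtain ⟨ψ₀, -, hψ₀⟩ := exists_isDualMin hK honec hone0 hμ honeμ hR.le hKR h₀R
  obtain ⟨ψ₁, -, hψ₁⟩ := exists_isDualMin hK honec hone0 hμ honeμ hR.le hKR h₁R
  refine ⟨ψ₀, ψ₁, fun i => ?_, fun i => ?_, ?_⟩
  · simpa [one, setIntegral_const] using
      setIntegral_cell_eq_of_isDualMin hK honec hone0 honeμ h₀ hψ₀ i
  · simpa [one, setIntegral_const] using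
      setIntegral_cell_eq_of_isDualMin hK honec hone0 honeμ h₁ hψ₁ i
  set u : Euc d → ℝ := fun x => pot y₁ ψ₁ x - pot y₀ ψ₀ x
  set c := (∫ x in K, u x) / volume.real K
  refine ⟨c, ?_⟩
  set w : Euc d → ℝ := fun x => u x - c
  have hu : Continuous u := (continuous_pot y₁ ψ₁).sub (continuous_pot y₀ ψ₀)
  have hw : Continuous w := hu.sub continuous_const
  have hV : 0 < volume.real K := hμV ▸ Finset.sum_pos (fun i _ => hμ i) Finset.univ_nonempty
  have hw0 : ∫ x in K, w x = 0 := by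
    simp only [w]
    rw [integral_sub (hio hu) (hio continuous_const), setIntegral_const, smul_eq_mul]
    simp only [c]
    field_simp
    ring
  obtain ⟨W₀, hW₀⟩ := hK.exists_bound_of_continuousOn hw.continuousOn
  set W := max W₀ 1
  have hWpos : 0 < W := lt_max_of_lt_right one_pos
  have hW : ∀ x ∈ K, |w x| ≤ W := fun x hx => (hW₀ x hx).trans (le_max_left _ _)
  set sn : ℕ → ℝ := fun n => 1 / (4 * W) * (1 / ((n : ℝ) + 1))
  have hsn : ∀ n, 0 < sn n ∧ sn n * W ≤ 1 / 4 := fun n => by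
    refine ⟨by positivity, ?_⟩
    have : (1 : ℝ) / ((n : ℝ) + 1) ≤ 1 := (div_le_one (by positivity)).2 (by linarith [n.cast_nonneg (α := ℝ)])
    calc sn n * W = 1 / 4 * (1 / ((n : ℝ) + 1)) := by simp only [sn]; field_simp
      _ ≤ 1 / 4 * 1 := by gcongr
      _ = _ := mul_one _
  have hp : ∀ s : ℝ, 0 < s → s * W ≤ 1 / 4 → Continuous (fun x => 1 + s * w x) ∧
      (∀ x ∈ K, 0 ≤ 1 + s * w x) ∧ ∫ x in K, (1 + s * w x) = ∑ i, μ i := fun s hs0 hs => by
    refine ⟨by fun_prop, fun x hx => by nlinarith [abs_le.1 (hW x hx)], ?_⟩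
    rw [integral_add (hio continuous_const) ((hio hw).const_mul s), integral_const_mul, hw0,
      setIntegral_const, hμV]
    simp
  set box := Icc (0 : ι → ℝ) (fun i => 2 * R ^ 2 * (∑ j, μ j) / μ i)
  have hex : ∀ n, ∃ ψ ∈ box, IsDualMin K (fun x => 1 + sn n * w x) μ y₁ ψ := fun n => by
    obtain ⟨a, b, e⟩ := hp _ (hsn n).1 (hsn n).2
    exact exists_isDualMin hK a b hμ e hR.le hKR h₁R
  choose ψn hψbox hψmin using hex
  obtain ⟨ψ, -, φ, hφ, hlim⟩ := isCompact_Icc.tendsto_subseq hψbox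
  set L : (ι → ℝ) → ℝ := fun χ => ∫ x in K, pot y₁ χ x * w x
  have hval : ∀ (s : ℝ) (χ : ι → ℝ), dualValue K (fun x => 1 + s * w x) μ y₁ χ
      = dualValue K one μ y₁ χ + s * L χ := fun s χ => by
    simp only [dualValue, one, L]
    rw [← integral_const_mul]
    have : ∫ x in K, pot y₁ χ x * (1 + s * w x)
        = (∫ x in K, pot y₁ χ x * 1) + ∫ x in K, s * (pot y₁ χ x * w x) := by
      have i1 : IntegrableOn (fun x => pot y₁ χ x * 1) K :=
        hio ((continuous_pot y₁ χ).mul continuous_const)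
      have i2 : IntegrableOn (fun x => pot y₁ χ x * w x) K := hio ((continuous_pot y₁ χ).mul hw)
      rw [← integral_add i1 (i2.const_mul s)]
      congr 1
      ext x
      ring
    rw [this]
    ring
  have hJ1 : Continuous (dualValue K one μ y₁) := continuous_dualValue hK honec hone0
  have hLc : Continuous L := by
    obtain ⟨a, b, -⟩ := hp _ (hsn 0).1 (hsn 0).2
    have e : L = fun χ => (dualValue K (fun x => 1 + sn 0 * w x) μ y₁ χ
        - dualValue K one μ y₁ χ) / sn 0 := by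
      funext χ
      have := (hsn 0).1.ne'
      rw [hval]
      field_simp
      ring
    rw [e]
    exact ((continuous_dualValue hK a b).sub hJ1).div_const _
  have hs0 : Tendsto (fun n => sn (φ n)) atTop (𝓝 0) := by
    have h := (tendsto_one_div_add_atTop_nhds_zero_nat.const_mul (1 / (4 * W))).comp
      hφ.tendsto_atTop
    simpa [sn, Function.comp_def] using h
  have hL : Tendsto (fun n => L (ψn (φ n))) atTop (𝓝 (L ψ)) := (hLc.tendsto ψ).comp hlim
  have hmin : IsDualMin K one μ y₁ ψ := fun χ => by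
    have h := le_of_tendsto_of_tendsto'
      (((hJ1.tendsto ψ).comp hlim).add (hs0.mul hL))
      ((tendsto_const_nhds (x := dualValue K one μ y₁ χ)).add (hs0.mul_const (L χ))) (fun n => by
        have := hψmin (φ n) χ
        rw [hval, hval] at this
        exact this)
    simpa using h
  obtain ⟨c', hc'⟩ := isDualMin_unique hK hconv hKint hmin hψ₁
  set A := ∑ i, μ i * ‖y₁ i - y₀ i‖ ^ 2
  set P := ∫ x in K, w x ^ 2
  have htest : ∀ n, L (ψn (φ n)) - (∫ x in K, pot y₀ ψ₀ x * w x)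
      ≤ 700 * R * Real.sqrt P * Real.sqrt A := fun n =>
    dual_test_le hK hconv hR hKR h₀ h₁ h₀R h₁R hμ hμV hw hw0 hW (hsn (φ n)).1 (hsn (φ n)).2 hψ₀
      (hψmin (φ n))
  have hle := le_of_tendsto' (hL.sub_const (∫ x in K, pot y₀ ψ₀ x * w x)) htest
  have hLψ : L ψ - (∫ x in K, pot y₀ ψ₀ x * w x) = P := by
    simp only [L, P]
    have i1 : IntegrableOn (fun x => pot y₁ ψ x * w x) K := hio ((continuous_pot y₁ ψ).mul hw)
    have i2 : IntegrableOn (fun x => pot y₀ ψ₀ x * w x) K := hio ((continuous_pot y₀ ψ₀).mul hw)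
    rw [← integral_sub i1 i2]
    have e : ∫ x in K, (pot y₁ ψ x * w x - pot y₀ ψ₀ x * w x)
        = ∫ x in K, (w x ^ 2 + (c + c') * w x) := by
      refine setIntegral_congr_fun hK.measurableSet fun x hx => ?_
      simp only [w, u, hc' x hx]
      ring
    have i3 : IntegrableOn (fun x => w x ^ 2) K := hio (hw.pow 2)
    rw [e, integral_add i3 ((hio hw).const_mul _), integral_const_mul, hw0,
      mul_zero, add_zero]
  rw [hLψ] at hle
  have hP0 : 0 ≤ P := integral_nonneg fun x => sq_nonneg (w x)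
  have hA0 : 0 ≤ A := Finset.sum_nonneg fun i _ => mul_nonneg (hμ i).le (sq_nonneg _)
  show P ≤ (700 * R) ^ 2 * A
  nlinarith [Real.sq_sqrt hP0, Real.sq_sqrt hA0, Real.sqrt_nonneg P, Real.sqrt_nonneg A,
    sq_nonneg (Real.sqrt P - 700 * R * Real.sqrt A)]

end Vale.Agent.P074
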