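import Vale.Agent.P047.PrekopaLeindler
import Vale.Agent.P074.Defs
import Mathlib.MeasureTheory.Integral.Bochner.Set
import Mathlib.Analysis.SpecialFunctions.Exp
import Mathlib.Analysis.SpecialFunctions.Sqrt

/-!
# A nonlinear Bochner inequality from Prékopa–Leindler

If the midpoints of `A` and `B` lie in `M`, the Gaussian mass of `M` exceeds the geometric mean of
the masses of `A` and `B` by a term quadratic in the difference of the averages of any Lipschitz
function.
-/

open MeasureTheory Set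
open scoped ENNReal RealInnerProductSpace

namespace Vale.Agent.P074

variable {d : ℕ}

/-- The Gaussian weight. -/
noncomputable def gauss (τ : ℝ) (x : Euc d) : ℝ := Real.exp (-(τ * ‖x‖ ^ 2))

lemma continuous_gauss (τ : ℝ) : Continuous (gauss (d := d) τ) := by
  unfold gauss; fun_prop

lemma gauss_pos (τ : ℝ) (x : Euc d) : 0 < gauss τ x := Real.exp_pos _

lemma pl_euc {f g h : Euc d → ℝ≥0∞} (hf : Measurable f) (hg : Measurable g) (hh : Measurable h)
    (H : ∀ x y, f x * g y ≤ h ((2 : ℝ)⁻¹ • (x + y)) ^ 2) :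
    (∫⁻ x, f x) * (∫⁻ x, g x) ≤ (∫⁻ x, h x) ^ 2 := by
  have e := PiLp.volume_preserving_toLp (Fin d)
  have hm : Measurable (WithLp.toLp 2 : (Fin d → ℝ) → Euc d) := e.measurable
  have hint : ∀ u : Euc d → ℝ≥0∞, Measurable u →
      ∫⁻ x, u x = ∫⁻ x : Fin d → ℝ, u (WithLp.toLp 2 x) := fun u hu =>
    (e.lintegral_comp hu).symm
  rw [hint f hf, hint g hg, hint h hh]
  refine P047.pl_midpoint (hf.comp hm) (hg.comp hm) (hh.comp hm) fun x y => ?_
  simpa using H (WithLp.toLp 2 x) (WithLp.toLp 2 y)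

lemma exp_average_le {A : Set (Euc d)} (hA : MeasurableSet A) {g s : Euc d → ℝ}
    (hg : IntegrableOn g A) (hgs : IntegrableOn (fun x => g x * s x) A)
    (hges : IntegrableOn (fun x => g x * Real.exp (s x)) A) (hg0 : ∀ x ∈ A, 0 ≤ g x)
    (hpos : 0 < ∫ x in A, g x) :
    (∫ x in A, g x) * Real.exp ((∫ x in A, g x * s x) / ∫ x in A, g x)
      ≤ ∫ x in A, g x * Real.exp (s x) := by
  set G := ∫ x in A, g x
  set a := (∫ x in A, g x * s x) / G
  have ha : a * G = ∫ x in A, g x * s x := div_mul_cancel₀ _ hpos.ne'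
  have h : ∫ x in A, Real.exp a * ((1 - a) * g x + g x * s x)
      ≤ ∫ x in A, g x * Real.exp (s x) := by
    refine setIntegral_mono_on (((hg.const_mul _).add hgs).const_mul _) hges hA fun x hx => ?_
    have h1 := mul_le_mul_of_nonneg_left (Real.add_one_le_exp (s x - a))
      (mul_nonneg (hg0 x hx) (Real.exp_pos a).le)
    rw [mul_assoc (g x) (Real.exp a) (Real.exp (s x - a)), ← Real.exp_add,
      show a + (s x - a) = s x by ring] at h1
    calc Real.exp a * ((1 - a) * g x + g x * s x) = g x * Real.exp a * (s x - a + 1) := by ring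
      _ ≤ _ := h1
  rw [integral_const_mul, integral_add (hg.const_mul _) hgs, integral_const_mul, ← ha] at h
  calc G * Real.exp a = Real.exp a * ((1 - a) * G + a * G) := by ring
    _ ≤ _ := h

/-- The tilted Prékopa–Leindler inequality. -/
theorem gauss_midpoint_le {K A B M : Set (Euc d)} (hK : IsCompact K) (hA : MeasurableSet A)
    (hB : MeasurableSet B) (hM : MeasurableSet M) (hAK : A ⊆ K) (hBK : B ⊆ K) (hMK : M ⊆ K)
    (hmid : ∀ x ∈ A, ∀ y ∈ B, (2 : ℝ)⁻¹ • (x + y) ∈ M) {τ : ℝ} (hτ : 0 ≤ τ)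
    (hA0 : 0 < ∫ x in A, gauss τ x) (hB0 : 0 < ∫ x in B, gauss τ x)
    {f : Euc d → ℝ} (hf : Continuous f) {L : ℝ} (hL : 0 < L)
    (hlip : ∀ x ∈ A, ∀ y ∈ B, |f x - f y| ≤ L * ‖x - y‖) :
    Real.sqrt ((∫ x in A, gauss τ x) * ∫ x in B, gauss τ x) *
        (1 + τ / (4 * L ^ 2) * ((∫ x in A, gauss τ x * f x) / (∫ x in A, gauss τ x)
          - (∫ x in B, gauss τ x * f x) / ∫ x in B, gauss τ x) ^ 2)
      ≤ ∫ x in M, gauss τ x := by
  set GA := ∫ x in A, gauss τ x
  set GB := ∫ x in B, gauss τ x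
  set D := (∫ x in A, gauss τ x * f x) / GA - (∫ x in B, gauss τ x * f x) / GB
  set κ := D / L ^ 2
  set sA : Euc d → ℝ := fun x => τ * κ * f x
  set sB : Euc d → ℝ := fun x => -(τ * κ * f x)
  set e : ℝ := Real.exp (τ * κ ^ 2 * L ^ 2 / 4)
  have hgc := continuous_gauss (d := d) τ
  have hio : ∀ {u : Euc d → ℝ}, Continuous u → ∀ {S : Set (Euc d)}, S ⊆ K → IntegrableOn u S :=
    fun hu S hS => (hu.continuousOn.integrableOn_compact hK).mono_set hS
  let lift : (Euc d → ℝ) → Set (Euc d) → Euc d → ℝ≥0∞ := fun u S x =>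
    S.indicator (fun x => ENNReal.ofReal (u x)) x
  have hint : ∀ {u : Euc d → ℝ}, Continuous u → ∀ {S : Set (Euc d)}, MeasurableSet S → S ⊆ K →
      (∀ x, 0 ≤ u x) → ∫⁻ x, lift u S x = ENNReal.ofReal (∫ x in S, u x) := fun hu S hS hSK h0 => by
    rw [lintegral_indicator hS, ofReal_integral_eq_lintegral_ofReal (hio hu hSK) (ae_of_all _ h0)]
  have hmeas : ∀ {u : Euc d → ℝ}, Continuous u → ∀ {S : Set (Euc d)}, MeasurableSet S →
      Measurable (lift u S) := fun hu S hS => hu.measurable.ennreal_ofReal.indicator hS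
  set uA : Euc d → ℝ := fun x => gauss τ x * Real.exp (sA x)
  set uB : Euc d → ℝ := fun x => gauss τ x * Real.exp (sB x)
  set uM : Euc d → ℝ := fun x => gauss τ x * e
  have huA : Continuous uA := by fun_prop
  have huB : Continuous uB := by fun_prop
  have huM : Continuous uM := by fun_prop
  have hA' : ∀ x, 0 ≤ uA x := fun x => mul_nonneg (gauss_pos τ x).le (Real.exp_pos _).le
  have hB' : ∀ x, 0 ≤ uB x := fun x => mul_nonneg (gauss_pos τ x).le (Real.exp_pos _).le
  have hM' : ∀ x, 0 ≤ uM x := fun x => mul_nonneg (gauss_pos τ x).le (Real.exp_pos _).le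
  have hpl := pl_euc (f := lift uA A) (g := lift uB B) (h := lift uM M) (hmeas huA hA)
    (hmeas huB hB) (hmeas huM hM) fun x y => by
    by_cases hx : x ∈ A
    swap
    · simp [lift, hx]
    by_cases hy : y ∈ B
    swap
    · simp [lift, hy]
    simp only [lift, indicator_of_mem hx, indicator_of_mem hy, indicator_of_mem (hmid x hx y hy)]
    rw [← ENNReal.ofReal_mul (hA' x), ← ENNReal.ofReal_pow (hM' _)]
    refine ENNReal.ofReal_le_ofReal ?_
    simp only [uA, uB, uM, sA, sB, e, gauss, ← Real.exp_add, ← Real.exp_nat_mul]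
    refine Real.exp_le_exp.2 ?_
    have hz : ‖(2 : ℝ)⁻¹ • (x + y)‖ ^ 2 = (‖x‖ ^ 2 + ‖y‖ ^ 2) / 2 - ‖x - y‖ ^ 2 / 4 := by
      rw [norm_smul, norm_inv, Real.norm_ofNat, mul_pow, norm_add_sq_real, norm_sub_sq_real]
      ring
    have hk : κ * (f x - f y) ≤ ‖x - y‖ ^ 2 / 2 + κ ^ 2 * L ^ 2 / 2 := by
      have h1 : κ * (f x - f y) ≤ |κ| * (L * ‖x - y‖) :=
        (le_abs_self _).trans (by
          rw [abs_mul]; exact mul_le_mul_of_nonneg_left (hlip x hx y hy) (abs_nonneg _))
      nlinarith [sq_nonneg (‖x - y‖ - |κ| * L), sq_abs κ]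
    push_cast
    rw [hz]
    nlinarith [mul_le_mul_of_nonneg_left hk hτ]
  rw [hint huA hA hAK hA', hint huB hB hBK hB', hint huM hM hMK hM',
    ← ENNReal.ofReal_mul (integral_nonneg hA'), ← ENNReal.ofReal_pow (integral_nonneg hM'),
    ENNReal.ofReal_le_ofReal_iff (by positivity)] at hpl
  have hjA := exp_average_le hA (s := sA) (hio hgc hAK) (hio (by fun_prop) hAK)
    (hio huA hAK) (fun x _ => (gauss_pos τ x).le) hA0
  have hjB := exp_average_le hB (s := sB) (hio hgc hBK) (hio (by fun_prop) hBK)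
    (hio huB hBK) (fun x _ => (gauss_pos τ x).le) hB0
  have eA : ∫ x in A, gauss τ x * sA x = τ * κ * ∫ x in A, gauss τ x * f x := by
    rw [← integral_const_mul]; refine integral_congr_ae (ae_of_all _ fun x => ?_)
    simp only [sA]; ring
  have eB : ∫ x in B, gauss τ x * sB x = -(τ * κ * ∫ x in B, gauss τ x * f x) := by
    rw [← integral_const_mul, ← integral_neg]; refine integral_congr_ae (ae_of_all _ fun x => ?_)
    simp only [sB]; ring
  have eM : ∫ x in M, uM x = (∫ x in M, gauss τ x) * e := integral_mul_const _ _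
  rw [eA] at hjA
  rw [eB] at hjB
  rw [eM] at hpl
  have hprod := (mul_le_mul hjA hjB (by positivity) (integral_nonneg hA')).trans hpl
  rw [mul_mul_mul_comm, ← Real.exp_add] at hprod
  set q := τ / (4 * L ^ 2) * D ^ 2
  have he : τ * κ * (∫ x in A, gauss τ x * f x) / GA
      + -(τ * κ * ∫ x in B, gauss τ x * f x) / GB = 2 * q + 2 * (τ * κ ^ 2 * L ^ 2 / 4) := by
    simp only [q, κ, D]
    field_simp
    ring
  rw [he, Real.exp_add] at hprod
  have he2 : Real.exp (2 * (τ * κ ^ 2 * L ^ 2 / 4)) = e ^ 2 := by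
    simp only [e, ← Real.exp_nat_mul]; norm_num
  rw [he2, ← mul_assoc, mul_pow] at hprod
  have h1 := le_of_mul_le_mul_right hprod (by positivity)
  have hM0 : 0 ≤ ∫ x in M, gauss τ x := integral_nonneg fun x => (gauss_pos τ x).le
  have h2 : Real.sqrt (GA * GB) * Real.exp q ≤ ∫ x in M, gauss τ x := by
    refine (pow_le_pow_iff_left₀ (by positivity) hM0 two_ne_zero).1 ?_
    rw [mul_pow, Real.sq_sqrt (by positivity), ← Real.exp_nat_mul]
    exact_mod_cast h1
  refine le_trans (mul_le_mul_of_nonneg_left ?_ (Real.sqrt_nonneg _)) h2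
  linarith [Real.add_one_le_exp q]

end Vale.Agent.P074
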